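import Mathlib

/-! # Quadratic fields: primes above `l`, discriminant and the two embeddings into `ℚ̄`
(number theory input of the literal Galois side of P022). -/

open NumberField

namespace Vale.Agent.P022.H20

/-- the fixed algebraic closure of `ℚ` -/
abbrev Qb := AlgebraicClosure ℚ

section Ideals

variable {K : Type*} [Field K] [NumberField K]

lemma absNorm_span_l (hK : Module.finrank ℚ K = 2) (l : ℕ) :
    Ideal.absNorm (Ideal.span {(l : 𝓞 K)}) = l ^ 2 := by
  rw [Ideal.absNorm_span_natCast, RingOfIntegers.rank, hK]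

lemma eq_of_le_of_absNorm {I J : Ideal (𝓞 K)} (h : I ≤ J) (hI : I ≠ ⊥)
    (hn : Ideal.absNorm I = Ideal.absNorm J) : I = J := by
  obtain ⟨C, rfl⟩ := Ideal.dvd_iff_le.2 h
  rw [map_mul] at hn
  have hJ : Ideal.absNorm J ≠ 0 := by
    intro h0
    rw [Ideal.absNorm_eq_zero_iff] at h0
    apply hI
    rw [h0, Ideal.bot_mul]
  have hC : Ideal.absNorm C = 1 := by
    have := Nat.pos_of_ne_zero hJ
    nlinarith
  rw [Ideal.absNorm_eq_one_iff] at hC
  rw [hC, Ideal.mul_top]

/-- a prime above `l` has norm `l` or is `(l)` -/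
lemma norm_or_span (hK : Module.finrank ℚ K = 2) {l : ℕ} (hl : l.Prime) {p : Ideal (𝓞 K)}
    (hp : p.IsPrime) (hlp : (l : 𝓞 K) ∈ p) :
    Ideal.absNorm p = l ∨ p = Ideal.span {(l : 𝓞 K)} := by
  have hle : Ideal.span {(l : 𝓞 K)} ≤ p := by
    rw [Ideal.span_singleton_le_iff_mem]; exact hlp
  have hd : Ideal.absNorm p ∣ l ^ 2 := by
    rw [← absNorm_span_l hK]
    exact Ideal.absNorm_dvd_absNorm_of_le hle
  obtain ⟨k, hk, hk'⟩ := (Nat.dvd_prime_pow hl).1 hd
  interval_cases k
  · exfalso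
    rw [pow_zero, Ideal.absNorm_eq_one_iff] at hk'
    exact hp.ne_top hk'
  · left; simpa using hk'
  · right
    symm
    apply eq_of_le_of_absNorm hle
    · rw [Ne, Ideal.span_singleton_eq_bot]
      exact_mod_cast hl.ne_zero
    · rw [absNorm_span_l hK, hk']

lemma prime_of_norm {l : ℕ} (hl : l.Prime) {p : Ideal (𝓞 K)} (h : Ideal.absNorm p = l) :
    p.IsPrime := by
  apply Ideal.isPrime_of_irreducible_absNorm
  rw [h]
  exact hl.prime.irreducible

lemma mem_of_norm {l : ℕ} {p : Ideal (𝓞 K)} (h : Ideal.absNorm p = l) : (l : 𝓞 K) ∈ p := by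
  rw [← h]; exact Ideal.absNorm_mem p

lemma ne_bot_of_mem {l : ℕ} (hl : l.Prime) {p : Ideal (𝓞 K)} (h : (l : 𝓞 K) ∈ p) : p ≠ ⊥ := by
  rintro rfl
  rw [Ideal.mem_bot] at h
  exact hl.ne_zero (by exact_mod_cast h)

/-- if some prime has norm `l` then every prime above `l` has -/
lemma norm_of_norm (hK : Module.finrank ℚ K = 2) {l : ℕ} (hl : l.Prime) {p q : Ideal (𝓞 K)}
    (hp : p.IsPrime) (hlp : (l : 𝓞 K) ∈ p) (hq : Ideal.absNorm q = l) : Ideal.absNorm p = l := by
  rcases norm_or_span hK hl hp hlp with h | h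
  · exact h
  · exfalso
    have hle : p ≤ q := by
      rw [h, Ideal.span_singleton_le_iff_mem]
      exact mem_of_norm hq
    have hpm : p.IsMaximal := hp.isMaximal (ne_bot_of_mem hl hlp)
    have hpq : p = q := hpm.eq_of_le (prime_of_norm hl hq).ne_top hle
    have h1 := absNorm_span_l hK l
    rw [← h, hpq, hq] at h1
    have := hl.two_le
    nlinarith

/-- the product of two distinct primes of norm `l` is `(l)` -/
lemma mul_eq_span (hK : Module.finrank ℚ K = 2) {l : ℕ} (hl : l.Prime) {p q : Ideal (𝓞 K)}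
    (hp : Ideal.absNorm p = l) (hq : Ideal.absNorm q = l) (hpq : p ≠ q) :
    p * q = Ideal.span {(l : 𝓞 K)} := by
  have hpp := prime_of_norm hl hp
  have hqp := prime_of_norm hl hq
  have hpm : p.IsMaximal := hpp.isMaximal (ne_bot_of_mem hl (mem_of_norm hp))
  have hqm : q.IsMaximal := hqp.isMaximal (ne_bot_of_mem hl (mem_of_norm hq))
  have hco : IsCoprime p q := Ideal.isCoprime_of_isMaximal hpq
  have hle : Ideal.span {(l : 𝓞 K)} ≤ p * q := by
    rw [Ideal.mul_eq_inf_of_coprime (Ideal.isCoprime_iff_sup_eq.1 hco),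
      Ideal.span_singleton_le_iff_mem]
    exact ⟨mem_of_norm hp, mem_of_norm hq⟩
  symm
  apply eq_of_le_of_absNorm hle
  · rw [Ne, Ideal.span_singleton_eq_bot]
    exact_mod_cast hl.ne_zero
  · rw [absNorm_span_l hK, map_mul, hp, hq]; ring

/-- two distinct primes of norm `l` are all of them -/
lemma eq_or_eq (hK : Module.finrank ℚ K = 2) {l : ℕ} (hl : l.Prime) {p q s : Ideal (𝓞 K)}
    (hp : Ideal.absNorm p = l) (hq : Ideal.absNorm q = l) (hpq : p ≠ q)
    (hs : Ideal.absNorm s = l) : s = p ∨ s = q := by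
  have h := mul_eq_span hK hl hp hq hpq
  have hsp := prime_of_norm hl hs
  have hle : p * q ≤ s := by
    rw [h, Ideal.span_singleton_le_iff_mem]; exact mem_of_norm hs
  rcases hsp.mul_le.1 hle with h1 | h1
  · left
    have hpm : p.IsMaximal := (prime_of_norm hl hp).isMaximal (ne_bot_of_mem hl (mem_of_norm hp))
    exact (hpm.eq_of_le hsp.ne_top h1).symm
  · right
    have hqm : q.IsMaximal := (prime_of_norm hl hq).isMaximal (ne_bot_of_mem hl (mem_of_norm hq))
    exact (hqm.eq_of_le hsp.ne_top h1).symm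

/-- a prime of norm `l` has residue field `F_l` -/
lemma exists_int {l : ℕ} (hl : l.Prime) {p : Ideal (𝓞 K)} (hp : Ideal.absNorm p = l) (x : 𝓞 K) :
    ∃ n : ℤ, x - (n : 𝓞 K) ∈ p := by
  have hpp := prime_of_norm hl hp
  have : Fact l.Prime := ⟨hl⟩
  have hc : Nat.card (𝓞 K ⧸ p) = l := by
    rw [← hp, Ideal.absNorm_apply]; rfl
  have : Nontrivial (𝓞 K ⧸ p) := Ideal.Quotient.nontrivial_iff.2 hpp.ne_top
  have h := mem_zmultiples_of_prime_card hc (g := (1 : 𝓞 K ⧸ p)) (g' := Ideal.Quotient.mk p x)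
    one_ne_zero
  obtain ⟨n, hn⟩ := AddSubgroup.mem_zmultiples_iff.1 h
  refine ⟨n, ?_⟩
  rw [← Ideal.Quotient.eq, ← hn]
  simp

end Ideals

section Embeddings

variable {K : Type*} [Field K] [NumberField K]

lemma emb_two (hK : Module.finrank ℚ K = 2) {f g : K →+* Qb} (hfg : f ≠ g) (h : K →+* Qb) :
    h = f ∨ h = g := by
  classical
  by_contra hc
  push Not at hc
  have h3 : ({f, g, h} : Finset (K →+* Qb)).card = 3 := by
    rw [Finset.card_insert_of_notMem, Finset.card_insert_of_notMem, Finset.card_singleton]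
    · simpa using hc.2.symm
    · simp only [Finset.mem_insert, Finset.mem_singleton, not_or]
      exact ⟨hfg, hc.1.symm⟩
  have hle : ({f, g, h} : Finset (K →+* Qb)).card ≤ Fintype.card (K →+* Qb) :=
    Finset.card_le_univ _
  rw [h3, NumberField.Embeddings.card, hK] at hle
  omega

lemma exists_emb (hK : Module.finrank ℚ K = 2) (f : K →+* Qb) : ∃ g : K →+* Qb, g ≠ f := by
  have h : 1 < Fintype.card (K →+* Qb) := by
    rw [NumberField.Embeddings.card, hK]; norm_num
  exact Fintype.exists_ne_of_one_lt_card h f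

/-- if the two embeddings are congruent mod `P`, the discriminant is in `P` -/
lemma discr_mem (hK : Module.finrank ℚ K = 2) {f g : K →+* Qb} (hfg : f ≠ g)
    (P : Ideal (𝓞 Qb))
    (h : ∀ x : 𝓞 K, RingOfIntegers.mapRingHom f x - RingOfIntegers.mapRingHom g x ∈ P) :
    ((NumberField.discr K : ℤ) : 𝓞 Qb) ∈ P := by
  classical
  have hcard : Fintype.card (Module.Free.ChooseBasisIndex ℤ (𝓞 K)) = 2 := by
    rw [← Module.finrank_eq_card_chooseBasisIndex, RingOfIntegers.rank, hK]
  let e0 : Module.Free.ChooseBasisIndex ℤ (𝓞 K) ≃ Fin 2 := Fintype.equivFinOfCardEq hcard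
  let F : Fin 2 → (K →ₐ[ℚ] Qb) := ![RingHom.equivRatAlgHom K Qb f, RingHom.equivRatAlgHom K Qb g]
  have hFinj : Function.Injective F := by
    intro i j hij
    fin_cases i <;> fin_cases j
    · rfl
    · exfalso; exact hfg ((RingHom.equivRatAlgHom K Qb).injective hij)
    · exfalso; exact hfg ((RingHom.equivRatAlgHom K Qb).injective hij).symm
    · rfl
  have hFb : Function.Bijective F := by
    rw [Fintype.bijective_iff_injective_and_card]
    refine ⟨hFinj, ?_⟩
    rw [AlgHom.card, hK]; rfl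
  let e : Fin 2 ≃ (K →ₐ[ℚ] Qb) := Equiv.ofBijective F hFb
  have h1 : Algebra.discr ℚ (NumberField.integralBasis K) =
      Algebra.discr ℚ (NumberField.integralBasis K ∘ e0.symm) :=
    (Algebra.discr_reindex ℚ (NumberField.integralBasis K) e0).symm
  have h2 := Algebra.discr_eq_det_embeddingsMatrixReindex_pow_two ℚ Qb
    (NumberField.integralBasis K ∘ e0.symm) e
  rw [← h1, ← NumberField.coe_discr] at h2
  let b : Fin 2 → 𝓞 K := fun i => NumberField.RingOfIntegers.basis K (e0.symm i)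
  have hb : ∀ i, (NumberField.integralBasis K ∘ e0.symm) i = (b i : K) := by
    intro i
    simp only [Function.comp, b, NumberField.integralBasis_apply]
  have he0 : ∀ x, e 0 x = f x := fun x => rfl
  have he1 : ∀ x, e 1 x = g x := fun x => rfl
  have h3 : ((NumberField.discr K : ℤ) : 𝓞 Qb) =
      (RingOfIntegers.mapRingHom f (b 0) * RingOfIntegers.mapRingHom g (b 1) -
        RingOfIntegers.mapRingHom g (b 0) * RingOfIntegers.mapRingHom f (b 1)) ^ 2 := by
    apply RingOfIntegers.ext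
    rw [Matrix.det_fin_two] at h2
    simp only [Algebra.embeddingsMatrixReindex, Algebra.embeddingsMatrix, Matrix.reindex_apply,
      Matrix.submatrix_apply, Equiv.refl_symm, Equiv.coe_refl, id, Matrix.of_apply,
      Equiv.symm_symm, hb, he0, he1] at h2
    simp only [map_intCast] at h2
    simp only [map_intCast, map_pow, map_sub, map_mul]
    exact h2
  rw [h3]
  apply Ideal.pow_mem_of_mem _ _ _ (by norm_num)
  have h4 : RingOfIntegers.mapRingHom f (b 0) * RingOfIntegers.mapRingHom g (b 1) -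
        RingOfIntegers.mapRingHom g (b 0) * RingOfIntegers.mapRingHom f (b 1) =
      (RingOfIntegers.mapRingHom f (b 0) - RingOfIntegers.mapRingHom g (b 0)) *
        RingOfIntegers.mapRingHom g (b 1) -
      (RingOfIntegers.mapRingHom f (b 1) - RingOfIntegers.mapRingHom g (b 1)) *
        RingOfIntegers.mapRingHom g (b 0) := by ring
  rw [h4]
  exact P.sub_mem (P.mul_mem_right _ (h _)) (P.mul_mem_right _ (h _))

/-- an integer in a prime `P` above `l` is divisible by `l` -/
lemma dvd_of_mem {l : ℕ} (hl : l.Prime) {P : Ideal (𝓞 Qb)} (hP : P.IsPrime)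
    (hlP : (l : 𝓞 Qb) ∈ P) {d : ℤ} (hd : (d : 𝓞 Qb) ∈ P) : (l : ℤ) ∣ d := by
  by_contra hc
  have hco : IsCoprime (l : ℤ) d :=
    (Nat.prime_iff_prime_int.1 hl).irreducible.coprime_iff_not_dvd.2 hc
  obtain ⟨a, b, hab⟩ := hco
  apply hP.ne_top
  rw [Ideal.eq_top_iff_one]
  have : (1 : 𝓞 Qb) = (a : 𝓞 Qb) * (l : 𝓞 Qb) + (b : 𝓞 Qb) * (d : 𝓞 Qb) := by
    exact_mod_cast hab.symm
  rw [this]
  exact P.add_mem (P.mul_mem_left _ hlP) (P.mul_mem_left _ hd)

end Embeddings

end Vale.Agent.P022.H20
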