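import Vale.Agent.P022.H20.GalDef
import Vale.Agent.P022.H20.Quad

/-! # P022: trace, determinant, ramification and parity of a representation of `G_ℚ` induced from
a character of `G_K`, `K` quadratic -/

open NumberField Matrix

set_option linter.unusedSectionVars false

noncomputable section

namespace Vale.Agent.P022.H20

open Vale.Agent.P022

/-! ### linear algebra -/

section Lin

variable {E : Type*} [Field E]

/-- the determinant of two vectors -/
def dt (v w : Fin 2 → E) : E := v 0 * w 1 - v 1 * w 0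

lemma dt_ne {v w : Fin 2 → E} (hv : v ≠ 0) (h : ∀ a : E, w ≠ a • v) : dt v w ≠ 0 := by
  intro hd
  unfold dt at hd
  by_cases h0 : v 0 = 0
  · by_cases h1 : v 1 = 0
    · apply hv
      ext i; fin_cases i <;> simp [h0, h1]
    · apply h (w 1 / v 1)
      have hw0 : w 0 = 0 := by
        rw [h0, zero_mul, zero_sub, neg_eq_zero] at hd
        exact (mul_eq_zero.1 hd).resolve_left h1
      ext i; fin_cases i
      · simp [h0, hw0]
      · simp [h1]
  · apply h (w 0 / v 0)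
    ext i; fin_cases i
    · simp [h0]
    · simp only [Fin.mk_one, Pi.smul_apply, smul_eq_mul]
      field_simp
      linear_combination hd

lemma tr_det {A : Matrix (Fin 2) (Fin 2) E} {v w : Fin 2 → E} (hd : dt v w ≠ 0) {p q s t : E}
    (hv : A *ᵥ v = p • v + q • w) (hw : A *ᵥ w = s • v + t • w) :
    A.trace = p + t ∧ A.det = p * t - q * s := by
  have h1 : A 0 0 * v 0 + A 0 1 * v 1 = p * v 0 + q * w 0 := by
    have := congrFun hv 0
    simpa [Matrix.mulVec, dotProduct, Fin.sum_univ_two] using this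
  have h2 : A 1 0 * v 0 + A 1 1 * v 1 = p * v 1 + q * w 1 := by
    have := congrFun hv 1
    simpa [Matrix.mulVec, dotProduct, Fin.sum_univ_two] using this
  have h3 : A 0 0 * w 0 + A 0 1 * w 1 = s * v 0 + t * w 0 := by
    have := congrFun hw 0
    simpa [Matrix.mulVec, dotProduct, Fin.sum_univ_two] using this
  have h4 : A 1 0 * w 0 + A 1 1 * w 1 = s * v 1 + t * w 1 := by
    have := congrFun hw 1
    simpa [Matrix.mulVec, dotProduct, Fin.sum_univ_two] using this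
  constructor
  · rw [Matrix.trace_fin_two]
    apply mul_left_cancel₀ hd
    unfold dt
    linear_combination w 1 * h1 - w 0 * h2 + v 0 * h4 - v 1 * h3
  · rw [Matrix.det_fin_two]
    apply mul_left_cancel₀ hd
    unfold dt
    linear_combination (A 1 0 * w 0 + A 1 1 * w 1) * h1 + (p * v 0 + q * w 0) * h4
      - (A 0 0 * w 0 + A 0 1 * w 1) * h2 - (p * v 1 + q * w 1) * h3

lemma eq_one {A : Matrix (Fin 2) (Fin 2) E} {v w : Fin 2 → E} (hd : dt v w ≠ 0)
    (hv : A *ᵥ v = v) (hw : A *ᵥ w = w) : A = 1 := by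
  have h1 : A 0 0 * v 0 + A 0 1 * v 1 = v 0 := by
    have := congrFun hv 0
    simpa [Matrix.mulVec, dotProduct, Fin.sum_univ_two] using this
  have h2 : A 1 0 * v 0 + A 1 1 * v 1 = v 1 := by
    have := congrFun hv 1
    simpa [Matrix.mulVec, dotProduct, Fin.sum_univ_two] using this
  have h3 : A 0 0 * w 0 + A 0 1 * w 1 = w 0 := by
    have := congrFun hw 0
    simpa [Matrix.mulVec, dotProduct, Fin.sum_univ_two] using this
  have h4 : A 1 0 * w 0 + A 1 1 * w 1 = w 1 := by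
    have := congrFun hw 1
    simpa [Matrix.mulVec, dotProduct, Fin.sum_univ_two] using this
  unfold dt at hd
  ext i j
  fin_cases i <;> fin_cases j
  · apply mul_left_cancel₀ hd
    simp only [Fin.zero_eta, Matrix.one_apply_eq]
    linear_combination w 1 * h1 - v 1 * h3
  · apply mul_left_cancel₀ hd
    simp only [Fin.zero_eta, Fin.mk_one, Matrix.one_apply, Fin.isValue]
    simp only [zero_ne_one, if_false, mul_zero]
    linear_combination v 0 * h3 - w 0 * h1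
  · apply mul_left_cancel₀ hd
    simp only [Fin.zero_eta, Fin.mk_one, Matrix.one_apply, Fin.isValue]
    simp only [one_ne_zero, if_false, mul_zero]
    linear_combination w 1 * h2 - v 1 * h4
  · apply mul_left_cancel₀ hd
    simp only [Fin.mk_one, Matrix.one_apply_eq]
    linear_combination v 0 * h4 - w 0 * h2

end Lin

/-! ### the subgroup `G_K` -/

section Sub

variable {K : Type*} [Field K] [NumberField K]

/-- the embedding `g ∘ j` -/
def tw (g : GQ) (j : K →+* Qb) : K →+* Qb := (g : Qb →+* Qb).comp j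

lemma tw_apply (g : GQ) (j : K →+* Qb) (x : K) : tw g j x = g (j x) := rfl

lemma mem_GK {g : GQ} {j : K →+* Qb} : g ∈ GK j ↔ tw g j = j := by
  constructor
  · intro h; ext x; exact h x
  · intro h x; exact congrArg (fun f : K →+* Qb => f x) h

/-- `G_K` has index two -/
lemma inv_mul_mem (hK : Module.finrank ℚ K = 2) {j : K →+* Qb} {g h : GQ} (hg : g ∉ GK j)
    (hh : h ∉ GK j) : g⁻¹ * h ∈ GK j := by
  have h1 : tw g j ≠ j := fun h => hg (mem_GK.2 h)
  have h2 : tw h j = tw g j := by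
    rcases emb_two hK (Ne.symm h1) (tw h j) with h3 | h3
    · exact absurd (mem_GK.2 h3) hh
    · exact h3
  intro x
  have h3 : h (j x) = g (j x) := congrArg (fun f : K →+* Qb => f x) h2
  rw [AlgEquiv.mul_apply, h3, ← AlgEquiv.mul_apply, inv_mul_cancel]; rfl

lemma mul_mem' (hK : Module.finrank ℚ K = 2) {j : K →+* Qb} {g h : GQ} (hg : g ∉ GK j)
    (hh : h ∉ GK j) : g * h ∈ GK j := by
  have h1 : g⁻¹ ∉ GK j := fun h => hg (by simpa using (GK j).inv_mem h)
  simpa using inv_mul_mem hK h1 hh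

lemma conj_mem (hK : Module.finrank ℚ K = 2) {j : K →+* Qb} {c g : GQ} (hc : c ∉ GK j)
    (hg : g ∈ GK j) : c⁻¹ * (g * c) ∈ GK j := by
  apply inv_mul_mem hK hc
  intro h
  apply hc
  have := (GK j).mul_mem ((GK j).inv_mem hg) h
  simpa using this

end Sub

/-! ### the induced representation on a basis -/

section Ind

variable {K : Type*} [Field K] [NumberField K] {E : Type*} [Field E]

/-- everything about the matrices of an induced representation -/
lemma ind_facts (hK : Module.finrank ℚ K = 2) {j : K →+* Qb} {χ : GK j →* Eˣ}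
    {r : GQ →* GL (Fin 2) E} (hr : IsInd j χ r) :
    ∃ (c : GQ) (hc : c ∉ GK j),
      (∀ g (hg : g ∈ GK j), (r g : Matrix (Fin 2) (Fin 2) E).trace =
          (χ ⟨g, hg⟩ : E) + (χ ⟨c⁻¹ * (g * c), conj_mem hK hc hg⟩ : E) ∧
        (r g : Matrix (Fin 2) (Fin 2) E).det =
          (χ ⟨g, hg⟩ : E) * (χ ⟨c⁻¹ * (g * c), conj_mem hK hc hg⟩ : E) ∧
        (χ ⟨g, hg⟩ = 1 → χ ⟨c⁻¹ * (g * c), conj_mem hK hc hg⟩ = 1 → r g = 1)) ∧
      (∀ g (hg : g ∉ GK j), (r g : Matrix (Fin 2) (Fin 2) E).trace = 0 ∧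
        (r g : Matrix (Fin 2) (Fin 2) E).det = - (χ ⟨g * g, mul_mem' hK hg hg⟩ : E)) := by
  obtain ⟨v, hv, c, hc0⟩ := hr
  have hmul : ∀ (a b : GQ) (u : Fin 2 → E), (r (a * b) : Matrix (Fin 2) (Fin 2) E) *ᵥ u =
      (r a : Matrix (Fin 2) (Fin 2) E) *ᵥ ((r b : Matrix (Fin 2) (Fin 2) E) *ᵥ u) := by
    intro a b u
    rw [map_mul, Units.val_mul, Matrix.mulVec_mulVec]
  have hv0 : v ≠ 0 := by
    rintro rfl
    apply hc0 0
    rw [Matrix.mulVec_zero, smul_zero]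
  have hc : c ∉ GK j := fun h => hc0 _ (hv ⟨c, h⟩)
  set w : Fin 2 → E := (r c : Matrix (Fin 2) (Fin 2) E) *ᵥ v with hw
  have hd : dt v w ≠ 0 := dt_ne hv0 hc0
  refine ⟨c, hc, ?_, ?_⟩
  · intro g hg
    have h1 : (r g : Matrix (Fin 2) (Fin 2) E) *ᵥ v = (χ ⟨g, hg⟩ : E) • v := hv ⟨g, hg⟩
    have h2 : (r g : Matrix (Fin 2) (Fin 2) E) *ᵥ w =
        (χ ⟨c⁻¹ * (g * c), conj_mem hK hc hg⟩ : E) • w := by
      have h3 := hv ⟨c⁻¹ * (g * c), conj_mem hK hc hg⟩
      have h4 : g * c = c * (c⁻¹ * (g * c)) := by group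
      have h5 : (r (g * c) : Matrix (Fin 2) (Fin 2) E) *ᵥ v =
          (r (c * (c⁻¹ * (g * c))) : Matrix (Fin 2) (Fin 2) E) *ᵥ v :=
        congrArg (fun z => (r z : Matrix (Fin 2) (Fin 2) E) *ᵥ v) h4
      rw [hw, ← hmul, h5, hmul]
      refine (congrArg (fun u => (r c : Matrix (Fin 2) (Fin 2) E) *ᵥ u) h3).trans ?_
      rw [Matrix.mulVec_smul]
    have h5 := tr_det hd (p := (χ ⟨g, hg⟩ : E)) (q := 0) (s := 0)
      (t := (χ ⟨c⁻¹ * (g * c), conj_mem hK hc hg⟩ : E)) (A := (r g : Matrix (Fin 2) (Fin 2) E))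
      (by rw [h1]; simp) (by rw [h2]; simp)
    refine ⟨h5.1, by rw [h5.2]; ring, ?_⟩
    intro h6 h7
    rw [h6] at h1
    rw [h7] at h2
    apply Units.ext
    exact eq_one hd (by simpa using h1) (by simpa using h2)
  · intro g hg
    have hcg : c⁻¹ * g ∈ GK j := inv_mul_mem hK hc hg
    have hgc : g * c ∈ GK j := mul_mem' hK hg hc
    have h1 : (r g : Matrix (Fin 2) (Fin 2) E) *ᵥ v = (χ ⟨c⁻¹ * g, hcg⟩ : E) • w := by
      have h3 := hv ⟨c⁻¹ * g, hcg⟩
      have h4 : g = c * (c⁻¹ * g) := by group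
      calc (r g : Matrix (Fin 2) (Fin 2) E) *ᵥ v
          = (r (c * (c⁻¹ * g)) : Matrix (Fin 2) (Fin 2) E) *ᵥ v := by rw [← h4]
        _ = _ := by
            rw [hmul]
            rw [h3, Matrix.mulVec_smul]
    have h2 : (r g : Matrix (Fin 2) (Fin 2) E) *ᵥ w = (χ ⟨g * c, hgc⟩ : E) • v := by
      rw [hw, ← hmul]
      exact hv ⟨g * c, hgc⟩
    have h5 := tr_det hd (p := (0 : E)) (q := (χ ⟨c⁻¹ * g, hcg⟩ : E)) (s := (χ ⟨g * c, hgc⟩ : E))
      (t := 0) (A := (r g : Matrix (Fin 2) (Fin 2) E))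
      (by rw [h1]; simp) (by rw [h2]; simp)
    refine ⟨by rw [h5.1]; simp, ?_⟩
    rw [h5.2]
    have h6 : χ ⟨g * g, mul_mem' hK hg hg⟩ = χ ⟨g * c, hgc⟩ * χ ⟨c⁻¹ * g, hcg⟩ := by
      rw [← map_mul]
      congr 1
      apply Subtype.ext
      simp only [Subgroup.coe_mul]
      group
    rw [h6, Units.val_mul]
    ring

end Ind

/-! ### Frobenius elements and inertia -/

section Frob

variable {K : Type*} [Field K] [NumberField K]

lemma below_prime (j : K →+* Qb) {P : Ideal (𝓞 Qb)} (hP : P.IsPrime) : (below j P).IsPrime :=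
  Ideal.comap_isPrime _ _

lemma mem_below {j : K →+* Qb} {P : Ideal (𝓞 Qb)} {x : 𝓞 K} :
    x ∈ below j P ↔ RingOfIntegers.mapRingHom j x ∈ P := Iff.rfl

lemma l_mem_below (j : K →+* Qb) {P : Ideal (𝓞 Qb)} {l : ℕ} (h : (l : 𝓞 Qb) ∈ P) :
    (l : 𝓞 K) ∈ below j P := by
  rw [mem_below, map_natCast]; exact h

lemma smul_map (g : GQ) (j : K →+* Qb) (x : 𝓞 K) :
    g • RingOfIntegers.mapRingHom j x = RingOfIntegers.mapRingHom (tw g j) x := rfl

/-- the prime `c⁻¹ P` -/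
def cP (c : GQ) (P : Ideal (𝓞 Qb)) : Ideal (𝓞 Qb) :=
  P.comap (MulSemiringAction.toRingHom GQ (𝓞 Qb) c)

lemma mem_cP {c : GQ} {P : Ideal (𝓞 Qb)} {x : 𝓞 Qb} : x ∈ cP c P ↔ c • x ∈ P := Iff.rfl

lemma cP_prime (c : GQ) {P : Ideal (𝓞 Qb)} (hP : P.IsPrime) : (cP c P).IsPrime :=
  Ideal.comap_isPrime _ _

lemma l_mem_cP (c : GQ) {P : Ideal (𝓞 Qb)} {l : ℕ} (h : (l : 𝓞 Qb) ∈ P) :
    (l : 𝓞 Qb) ∈ cP c P := by
  unfold cP
  rw [Ideal.mem_comap, map_natCast]; exact h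

lemma below_cP (c : GQ) (j : K →+* Qb) (P : Ideal (𝓞 Qb)) : below j (cP c P) = below (tw c j) P :=
  rfl

lemma conj_frob {c g : GQ} {P : Ideal (𝓞 Qb)} {n : ℕ} (h : ∀ x : 𝓞 Qb, g • x - x ^ n ∈ P)
    (x : 𝓞 Qb) : (c⁻¹ * (g * c)) • x - x ^ n ∈ cP c P := by
  rw [mem_cP, smul_sub, smul_pow', ← mul_smul]
  have h1 : c * (c⁻¹ * (g * c)) = g * c := by group
  rw [h1, mul_smul]
  exact h (c • x)

lemma conj_inertia {c g : GQ} {P : Ideal (𝓞 Qb)} (h : ∀ x : 𝓞 Qb, g • x - x ∈ P)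
    (x : 𝓞 Qb) : (c⁻¹ * (g * c)) • x - x ∈ cP c P := by
  rw [mem_cP, smul_sub, ← mul_smul]
  have h1 : c * (c⁻¹ * (g * c)) = g * c := by group
  rw [h1, mul_smul]
  exact h (c • x)

lemma frob_sq {g : GQ} {P : Ideal (𝓞 Qb)} {n : ℕ} (h : ∀ x : 𝓞 Qb, g • x - x ^ n ∈ P)
    (x : 𝓞 Qb) : (g * g) • x - x ^ (n ^ 2) ∈ P := by
  have h1 := h (g • x)
  have h2 : (g • x) ^ n - (x ^ n) ^ n ∈ P := by
    obtain ⟨y, hy⟩ := sub_dvd_pow_sub_pow (g • x) (x ^ n) n
    rw [hy]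
    exact P.mul_mem_right _ (h x)
  have h3 := P.add_mem h1 h2
  rw [mul_smul]
  have h4 : g • g • x - x ^ (n ^ 2) = (g • g • x - (g • x) ^ n) + ((g • x) ^ n - (x ^ n) ^ n) := by
    ring
  rw [h4]
  exact h3

/-- if the two embeddings are congruent mod `P` above `l`, then `l` divides the discriminant -/
lemma dvd_discr (hK : Module.finrank ℚ K = 2) {l : ℕ} (hl : l.Prime) {f g : K →+* Qb}
    (hfg : f ≠ g) {P : Ideal (𝓞 Qb)} (hP : P.IsPrime) (hlP : (l : 𝓞 Qb) ∈ P)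
    (h : ∀ x : 𝓞 K, RingOfIntegers.mapRingHom f x - RingOfIntegers.mapRingHom g x ∈ P) :
    (l : ℤ) ∣ NumberField.discr K :=
  dvd_of_mem hl hP hlP (discr_mem hK hfg P h)

/-- inertia is inside `G_K` -/
lemma inertia_mem (hK : Module.finrank ℚ K = 2) {l : ℕ} (hl : l.Prime)
    (hD : ¬ (l : ℤ) ∣ NumberField.discr K) (j : K →+* Qb) {P : Ideal (𝓞 Qb)} (hP : P.IsPrime)
    (hlP : (l : 𝓞 Qb) ∈ P) {g : GQ} (hg : ∀ x : 𝓞 Qb, g • x - x ∈ P) : g ∈ GK j := by
  by_contra hc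
  have h1 : tw g j ≠ j := fun h => hc (mem_GK.2 h)
  apply hD
  apply dvd_discr hK hl h1 hP hlP
  intro x
  rw [← smul_map]
  exact hg _

lemma int_fermat {l : ℕ} (hl : l.Prime) {P : Ideal (𝓞 Qb)} (hlP : (l : 𝓞 Qb) ∈ P) (n : ℤ) :
    (n : 𝓞 Qb) ^ l - (n : 𝓞 Qb) ∈ P := by
  have : Fact l.Prime := ⟨hl⟩
  have h1 : (l : ℤ) ∣ n ^ l - n := by
    rw [← ZMod.intCast_zmod_eq_zero_iff_dvd]
    push_cast
    rw [ZMod.pow_card, sub_self]
  obtain ⟨k, hk⟩ := h1
  have h2 : (n : 𝓞 Qb) ^ l - (n : 𝓞 Qb) = (l : 𝓞 Qb) * (k : 𝓞 Qb) := by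
    exact_mod_cast congrArg (fun z : ℤ => (z : 𝓞 Qb)) hk
  rw [h2]
  exact P.mul_mem_right _ hlP

/-- a Frobenius element at `l` in `G_K`: the prime below has norm `l` -/
lemma norm_of_frob_mem (hK : Module.finrank ℚ K = 2) {l : ℕ} (hl : l.Prime) (j : K →+* Qb)
    {P : Ideal (𝓞 Qb)} (hP : P.IsPrime) (hlP : (l : 𝓞 Qb) ∈ P) {g : GQ}
    (hg : ∀ x : 𝓞 Qb, g • x - x ^ l ∈ P) (hgK : g ∈ GK j) :
    Ideal.absNorm (below j P) = l := by
  have hbp := below_prime j hP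
  have hlb := l_mem_below j hlP
  rcases norm_or_span hK hl hbp hlb with h | h
  · exact h
  · exfalso
    have hn : Ideal.absNorm (below j P) = l ^ 2 := by rw [h, absNorm_span_l hK]
    have hroot : ∀ x : 𝓞 K, x ^ l - x ∈ below j P := by
      intro x
      rw [mem_below, map_sub, map_pow]
      have h1 := hg (RingOfIntegers.mapRingHom j x)
      rw [smul_map, mem_GK.1 hgK] at h1
      rw [← neg_sub]
      exact P.neg_mem h1
    have hroot' : ∀ x : 𝓞 K ⧸ below j P, x ^ l = x := by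
      intro x
      obtain ⟨x, rfl⟩ := Ideal.Quotient.mk_surjective x
      rw [← map_pow, Ideal.Quotient.eq]
      exact hroot x
    have hc : Nat.card (𝓞 K ⧸ below j P) = l ^ 2 := by
      rw [← hn, Ideal.absNorm_apply]; rfl
    have hfin : Finite (𝓞 K ⧸ below j P) := by
      apply Nat.finite_of_card_ne_zero
      rw [hc]
      exact pow_ne_zero _ hl.ne_zero
    have hfty : Fintype (𝓞 K ⧸ below j P) := Fintype.ofFinite _
    have hdom : IsDomain (𝓞 K ⧸ below j P) := Ideal.Quotient.isDomain _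
    classical
    let q : Polynomial (𝓞 K ⧸ below j P) := Polynomial.X ^ l - Polynomial.X
    have hqd : q.natDegree = l := by
      have h2 : (Polynomial.X : Polynomial (𝓞 K ⧸ below j P)).natDegree <
          (Polynomial.X ^ l : Polynomial (𝓞 K ⧸ below j P)).natDegree := by
        rw [Polynomial.natDegree_X, Polynomial.natDegree_X_pow]; exact hl.one_lt
      have h3 := Polynomial.natDegree_sub_eq_left_of_natDegree_lt h2
      rw [Polynomial.natDegree_X_pow] at h3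
      exact h3
    have hq0 : q ≠ 0 := by
      intro h0
      rw [h0, Polynomial.natDegree_zero] at hqd
      exact hl.ne_zero hqd.symm
    have hsub : (Finset.univ : Finset (𝓞 K ⧸ below j P)) ⊆ q.roots.toFinset := by
      intro x _
      rw [Multiset.mem_toFinset, Polynomial.mem_roots hq0]
      simp only [q, Polynomial.IsRoot, Polynomial.eval_sub, Polynomial.eval_pow,
        Polynomial.eval_X, hroot' x, sub_self]
    have hle := Finset.card_le_card hsub
    have hle2 := (Multiset.toFinset_card_le q.roots).trans (Polynomial.card_roots' q)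
    rw [Finset.card_univ, ← Nat.card_eq_fintype_card, hc] at hle
    rw [hqd] at hle2
    have := hl.two_le
    nlinarith

/-- the two primes below conjugate primes of norm `l` are distinct -/
lemma below_ne (hK : Module.finrank ℚ K = 2) {l : ℕ} (hl : l.Prime)
    (hD : ¬ (l : ℤ) ∣ NumberField.discr K) {j j' : K →+* Qb} (hj : j ≠ j')
    {P : Ideal (𝓞 Qb)} (hP : P.IsPrime) (hlP : (l : 𝓞 Qb) ∈ P)
    (hn : Ideal.absNorm (below j P) = l) : below j P ≠ below j' P := by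
  intro he
  apply hD
  apply dvd_discr hK hl hj hP hlP
  intro x
  obtain ⟨n, hx⟩ := exists_int hl hn x
  have h1 : RingOfIntegers.mapRingHom j x - (n : 𝓞 Qb) ∈ P := by
    have := mem_below.1 hx
    rwa [map_sub, map_intCast] at this
  have h2 : RingOfIntegers.mapRingHom j' x - (n : 𝓞 Qb) ∈ P := by
    rw [he] at hx
    have := mem_below.1 hx
    rwa [map_sub, map_intCast] at this
  have h3 := P.sub_mem h1 h2
  rwa [sub_sub_sub_cancel_right] at h3

/-- a Frobenius element at `l` outside `G_K`: the prime below is `(l)` -/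
lemma span_of_frob_not_mem (hK : Module.finrank ℚ K = 2) {l : ℕ} (hl : l.Prime)
    (hD : ¬ (l : ℤ) ∣ NumberField.discr K) (j : K →+* Qb)
    {P : Ideal (𝓞 Qb)} (hP : P.IsPrime) (hlP : (l : 𝓞 Qb) ∈ P) {g : GQ}
    (hg : ∀ x : 𝓞 Qb, g • x - x ^ l ∈ P) (hgK : g ∉ GK j) :
    below j P = Ideal.span {(l : 𝓞 K)} := by
  have hbp := below_prime j hP
  have hlb := l_mem_below j hlP
  rcases norm_or_span hK hl hbp hlb with h | h
  · exfalso
    apply hD
    have h1 : tw g j ≠ j := fun h => hgK (mem_GK.2 h)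
    apply dvd_discr hK hl h1 hP hlP
    intro x
    obtain ⟨n, hx⟩ := exists_int hl h x
    have h2 : RingOfIntegers.mapRingHom j x - (n : 𝓞 Qb) ∈ P := by
      have := mem_below.1 hx
      rwa [map_sub, map_intCast] at this
    have h3 := hg (RingOfIntegers.mapRingHom j x)
    rw [smul_map] at h3
    have h4 : (RingOfIntegers.mapRingHom j x) ^ l - (n : 𝓞 Qb) ^ l ∈ P := by
      obtain ⟨y, hy⟩ := sub_dvd_pow_sub_pow (RingOfIntegers.mapRingHom j x) (n : 𝓞 Qb) l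
      rw [hy]
      exact P.mul_mem_right _ h2
    have h5 := int_fermat hl hlP n
    have h6 := P.sub_mem (P.add_mem (P.add_mem h3 h4) h5) h2
    have h7 : RingOfIntegers.mapRingHom (tw g j) x - RingOfIntegers.mapRingHom j x =
      RingOfIntegers.mapRingHom (tw g j) x - RingOfIntegers.mapRingHom j x ^ l +
        (RingOfIntegers.mapRingHom j x ^ l - (n : 𝓞 Qb) ^ l) + ((n : 𝓞 Qb) ^ l - (n : 𝓞 Qb)) -
          (RingOfIntegers.mapRingHom j x - (n : 𝓞 Qb)) := by ring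
    rw [h7]
    exact h6
  · exact h

end Frob

/-! ### the theorem -/

section Main

variable {K : Type*} [Field K] [NumberField K] {E : Type*} [Field E]

/-- **Galois side.** `K` quadratic, `r` induced from `χ`, `χ` attached to `ψ` away from `B`: at
every prime `l ∤ B · disc K` the representation is unramified, with the expected trace
and determinant of Frobenius. -/
theorem gal' (hK : Module.finrank ℚ K = 2) (j : K →+* Qb) (χ : GK j →* Eˣ)
    (ψ : Ideal (𝓞 K) → E) (B : ℕ)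
    (hψ : ∀ 𝔭 𝔮 : Ideal (𝓞 K), 𝔭.IsPrime → 𝔮.IsPrime → IsCoprime 𝔭 (Ideal.span {(B : 𝓞 K)}) →
      IsCoprime 𝔮 (Ideal.span {(B : 𝓞 K)}) → ψ (𝔭 * 𝔮) = ψ 𝔭 * ψ 𝔮)
    (hatt : Attached j χ ψ B) (r : GQ →* GL (Fin 2) E) (hr : IsInd j χ r)
    {l : ℕ} (hl : l.Prime) (hlB : ¬ l ∣ B) (hD : ¬ (l : ℤ) ∣ NumberField.discr K) :
    UnrAt r l ∧ ∀ g : GQ, IsFrob l g →
      (r g : Matrix (Fin 2) (Fin 2) E).trace =
        ∑ᶠ 𝔭 ∈ {𝔭 : Ideal (𝓞 K) | Ideal.absNorm 𝔭 = l}, ψ 𝔭 ∧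
      (((∃ 𝔭 : Ideal (𝓞 K), Ideal.absNorm 𝔭 = l) ∧
          (r g : Matrix (Fin 2) (Fin 2) E).det = ψ (Ideal.span {(l : 𝓞 K)})) ∨
        ((∀ 𝔭 : Ideal (𝓞 K), Ideal.absNorm 𝔭 ≠ l) ∧
          (r g : Matrix (Fin 2) (Fin 2) E).det = - ψ (Ideal.span {(l : 𝓞 K)}))) := by
  obtain ⟨c, hc, h1, h2⟩ := ind_facts hK hr
  have hj : j ≠ tw c j := fun h => hc (mem_GK.2 h.symm)
  constructor
  · intro P hP hlP g hg
    have hgK := inertia_mem hK hl hD j hP hlP hg
    have hcK := conj_mem hK hc hgK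
    refine (h1 g hgK).2.2 ?_ ?_
    · exact (hatt l hl hlB P hP hlP ⟨g, hgK⟩).1 hg
    · exact (hatt l hl hlB (cP c P) (cP_prime c hP) (l_mem_cP c hlP) ⟨_, hcK⟩).1
        (fun x => conj_inertia hg x)
  · rintro g ⟨P, hP, hlP, hg⟩
    by_cases hgK : g ∈ GK j
    · have hn := norm_of_frob_mem hK hl j hP hlP hg hgK
      have hn' : Ideal.absNorm (below (tw c j) P) = l :=
        norm_of_norm hK hl (below_prime _ hP) (l_mem_below _ hlP) hn
      have hne := below_ne hK hl hD hj hP hlP hn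
      have hcK := conj_mem hK hc hgK
      have e1 : (χ ⟨g, hgK⟩ : E) = ψ (below j P) :=
        (hatt l hl hlB P hP hlP ⟨g, hgK⟩).2 (by rw [hn]; exact hg)
      have e2 : (χ ⟨c⁻¹ * (g * c), hcK⟩ : E) = ψ (below (tw c j) P) := by
        have := (hatt l hl hlB (cP c P) (cP_prime c hP) (l_mem_cP c hlP) ⟨_, hcK⟩).2
        rw [below_cP] at this
        exact this (by rw [hn']; exact fun x => conj_frob hg x)
      have hset : {𝔭 : Ideal (𝓞 K) | Ideal.absNorm 𝔭 = l} = {below j P, below (tw c j) P} := by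
        ext s
        simp only [Set.mem_ofPred_eq, Set.mem_insert_iff, Set.mem_singleton_iff]
        constructor
        · intro hs; exact eq_or_eq hK hl hn hn' hne hs
        · rintro (rfl | rfl)
          · exact hn
          · exact hn'
      have hcop : ∀ 𝔭 : Ideal (𝓞 K), Ideal.absNorm 𝔭 = l →
          IsCoprime 𝔭 (Ideal.span {(B : 𝓞 K)}) := by
        intro 𝔭 h𝔭
        have hm := mem_of_norm h𝔭
        rw [Ideal.isCoprime_iff_sup_eq, Ideal.eq_top_iff_one]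
        have hcc : IsCoprime (l : ℤ) (B : ℤ) :=
          Nat.isCoprime_iff_coprime.2 ((Nat.Prime.coprime_iff_not_dvd hl).2 hlB)
        obtain ⟨a, b, hab⟩ := hcc
        have : (1 : 𝓞 K) = (a : 𝓞 K) * (l : 𝓞 K) + (b : 𝓞 K) * (B : 𝓞 K) := by
          exact_mod_cast (congrArg (fun z : ℤ => (z : 𝓞 K)) hab).symm
        rw [this]
        exact Submodule.add_mem_sup (𝔭.mul_mem_left _ hm)
          (Ideal.mul_mem_left _ _ (Ideal.mem_span_singleton_self _))
      refine ⟨?_, Or.inl ⟨⟨_, hn⟩, ?_⟩⟩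
      · rw [(h1 g hgK).1, hset, finsum_mem_pair hne, e1, e2]
      · rw [(h1 g hgK).2.1, e1, e2, ← mul_eq_span hK hl hn hn' hne,
          hψ _ _ (below_prime _ hP) (below_prime _ hP) (hcop _ hn) (hcop _ hn')]
    · have hs := span_of_frob_not_mem hK hl hD j hP hlP hg hgK
      have hn : Ideal.absNorm (below j P) = l ^ 2 := by rw [hs, absNorm_span_l hK]
      have hno : ∀ 𝔭 : Ideal (𝓞 K), Ideal.absNorm 𝔭 ≠ l := by
        intro 𝔭 h𝔭
        have h3 := norm_of_norm hK hl (below_prime j hP) (l_mem_below j hlP) h𝔭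
        rw [hn] at h3
        have := hl.two_le
        nlinarith
      have hset : {𝔭 : Ideal (𝓞 K) | Ideal.absNorm 𝔭 = l} = ∅ := by
        ext s
        simp only [Set.mem_ofPred_eq, Set.mem_empty_iff_false, iff_false]
        exact hno s
      refine ⟨?_, Or.inr ⟨hno, ?_⟩⟩
      · rw [(h2 g hgK).1, hset, finsum_mem_empty]
      · rw [(h2 g hgK).2]
        congr 1
        rw [← hs]
        exact (hatt l hl hlB P hP hlP ⟨g * g, mul_mem' hK hgK hgK⟩).2
          (by rw [hn]; exact fun x => frob_sq hg x)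

/-- `gal'` with the hypothesis `disc K ∣ B` -/
theorem gal (hK : Module.finrank ℚ K = 2) (j : K →+* Qb) (χ : GK j →* Eˣ)
    (ψ : Ideal (𝓞 K) → E) (B : ℕ) (hB : NumberField.discr K ∣ (B : ℤ))
    (hψ : ∀ 𝔭 𝔮 : Ideal (𝓞 K), 𝔭.IsPrime → 𝔮.IsPrime → IsCoprime 𝔭 (Ideal.span {(B : 𝓞 K)}) →
      IsCoprime 𝔮 (Ideal.span {(B : 𝓞 K)}) → ψ (𝔭 * 𝔮) = ψ 𝔭 * ψ 𝔮)
    (hatt : Attached j χ ψ B) (r : GQ →* GL (Fin 2) E) (hr : IsInd j χ r)
    {l : ℕ} (hl : l.Prime) (hlB : ¬ l ∣ B) :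
    UnrAt r l ∧ ∀ g : GQ, IsFrob l g →
      (r g : Matrix (Fin 2) (Fin 2) E).trace =
        ∑ᶠ 𝔭 ∈ {𝔭 : Ideal (𝓞 K) | Ideal.absNorm 𝔭 = l}, ψ 𝔭 ∧
      (((∃ 𝔭 : Ideal (𝓞 K), Ideal.absNorm 𝔭 = l) ∧
          (r g : Matrix (Fin 2) (Fin 2) E).det = ψ (Ideal.span {(l : 𝓞 K)})) ∨
        ((∀ 𝔭 : Ideal (𝓞 K), Ideal.absNorm 𝔭 ≠ l) ∧
          (r g : Matrix (Fin 2) (Fin 2) E).det = - ψ (Ideal.span {(l : 𝓞 K)}))) :=
  gal' hK j χ ψ B hψ hatt r hr hl hlB (fun h => hlB (by exact_mod_cast h.trans hB))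

/-- complex conjugations are outside `G_K`, `K` totally complex -/
lemma conj_not_mem [IsTotallyComplex K] (j : K →+* Qb) {c : GQ} (hc : IsConj c) : c ∉ GK j := by
  intro h
  obtain ⟨φ, hφ⟩ := hc
  apply IsTotallyComplex.complexEmbedding_not_isReal (φ.comp j)
  rw [ComplexEmbedding.isReal_iff]
  ext x
  change starRingEnd ℂ (φ (j x)) = φ (j x)
  rw [← hφ (j x), h x]

lemma conj_sq {c : GQ} (hc : IsConj c) : c * c = 1 := by
  obtain ⟨φ, hφ⟩ := hc
  ext x
  apply φ.injective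
  rw [AlgEquiv.mul_apply, hφ, hφ]
  simp

/-- **oddness** -/
theorem odd [IsTotallyComplex K] (hK : Module.finrank ℚ K = 2) (j : K →+* Qb) (χ : GK j →* Eˣ)
    (r : GQ →* GL (Fin 2) E) (hr : IsInd j χ r) : OddRep r := by
  intro g hg
  obtain ⟨c, hc, h1, h2⟩ := ind_facts hK hr
  rw [(h2 g (conj_not_mem j hg)).2]
  have h3 : (⟨g * g, mul_mem' hK (conj_not_mem j hg) (conj_not_mem j hg)⟩ : GK j) = 1 :=
    Subtype.ext (conj_sq hg)
  rw [h3, map_one, Units.val_one]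

/-- an irreducible `r` with an eigenvector for `G_K` is induced -/
theorem isInd_of_irred (j : K →+* Qb) (χ : GK j →* Eˣ) (r : GQ →* GL (Fin 2) E) (hr : Irred r)
    (v : Fin 2 → E) (hv0 : v ≠ 0)
    (hv : ∀ h : GK j, (r h : Matrix (Fin 2) (Fin 2) E) *ᵥ v = (χ h : E) • v) : IsInd j χ r :=
  ⟨v, hv, hr v hv0⟩

end Main

end Vale.Agent.P022.H20
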