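import Vale.Agent.P022.H20.Gal
import Vale.Agent.P022.H916.Ram

/-! # P022: existence of Frobenius elements -/

open NumberField Matrix
open scoped Pointwise

set_option linter.unusedSectionVars false

noncomputable section

namespace Vale.Agent.P022.H20

open Vale.Agent.P022 Vale.Agent.P022.H916

section

variable {K : Type*} [Field K] [NumberField K] (j : K →+* Qb)

/-- **existence of Frobenius elements** over the number field `K`, at every prime of `𝓞 ℚ̄` -/
theorem exists_frob {P : Ideal (𝓞 Qb)} (hP : P.IsPrime) {l : ℕ} (hl : l.Prime)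
    (hlP : (l : 𝓞 Qb) ∈ P) :
    ∃ g : GK j, ∀ x : 𝓞 Qb, (g : GQ) • x - x ^ Ideal.absNorm (below j P) ∈ P := by
  classical
  have : Fact l.Prime := ⟨hl⟩
  have hbp := below_prime j hP
  have hlb := l_mem_below j hlP
  have hbm : (below j P).IsMaximal := hbp.isMaximal (ne_bot_of_mem hl hlb)
  set q := Ideal.absNorm (below j P) with hq
  obtain ⟨f, hf⟩ : ∃ f : ℕ, q = l ^ f := by
    have h1 : q ∣ l ^ Module.finrank ℤ (𝓞 K) := by
      rw [hq, ← Ideal.absNorm_span_natCast]
      apply Ideal.absNorm_dvd_absNorm_of_le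
      rw [Ideal.span_singleton_le_iff_mem]; exact hlb
    obtain ⟨f, _, hf⟩ := (Nat.dvd_prime_pow hl).1 h1
    exact ⟨f, hf⟩
  have hq0 : 0 < q := by rw [hf]; exact pow_pos hl.pos _
  -- every element of `𝓞 K` satisfies `x ^ q ≡ x`
  have hres : ∀ x : 𝓞 K, x ^ q - x ∈ below j P := by
    intro x
    let _ : Field (𝓞 K ⧸ below j P) := Ideal.Quotient.field _
    have hc : Nat.card (𝓞 K ⧸ below j P) = q := by
      rw [hq, Ideal.absNorm_apply]; rfl
    have hfin : Finite (𝓞 K ⧸ below j P) := by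
      apply Nat.finite_of_card_ne_zero
      rw [hc]; exact hq0.ne'
    let _ : Fintype (𝓞 K ⧸ below j P) := Fintype.ofFinite _
    have h2 := FiniteField.pow_card (Ideal.Quotient.mk (below j P) x)
    rw [← Nat.card_eq_fintype_card, hc, ← map_pow] at h2
    exact Ideal.Quotient.eq.1 h2
  let _ := algj j
  have := inv_j j
  have := comm_j j
  let _ : TopologicalSpace (𝓞 Qb) := ⊥
  have : DiscreteTopology (𝓞 Qb) := ⟨rfl⟩
  have := cont_j j
  have hlo : P.LiesOver (below j P) := ⟨rfl⟩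
  have hnt : Nontrivial (𝓞 Qb ⧸ P) := Ideal.Quotient.nontrivial_iff.2 hP.ne_top
  have hdom : IsDomain (𝓞 Qb ⧸ P) := Ideal.Quotient.isDomain _
  have hl0 : ((l : ℕ) : 𝓞 Qb ⧸ P) = 0 := by
    rw [← map_natCast (Ideal.Quotient.mk P), Ideal.Quotient.eq_zero_iff_mem]
    exact hlP
  have hch : CharP (𝓞 Qb ⧸ P) l := (CharP.charP_iff_prime_eq_zero hl).2 hl0
  have hbij : Function.Bijective (iterateFrobenius (𝓞 Qb ⧸ P) l f) := by
    constructor
    · exact iterateFrobenius_inj _ _ _
    · intro x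
      obtain ⟨y, rfl⟩ := Ideal.Quotient.mk_surjective x
      obtain ⟨z, hz⟩ := IsAlgClosed.exists_pow_nat_eq (y : Qb) hq0
      have hzi : IsIntegral ℤ z := IsIntegral.of_pow hq0 (by rw [hz]; exact y.2)
      obtain ⟨y', hy'⟩ : ∃ y' : 𝓞 Qb, (y' : Qb) = z := ⟨⟨z, hzi⟩, rfl⟩
      have hyq : y' ^ q = y := by
        apply RingOfIntegers.ext
        refine (map_pow (algebraMap (𝓞 Qb) Qb) y' q).trans ?_
        refine (congrArg (fun t : Qb => t ^ q) hy').trans hz
      refine ⟨Ideal.Quotient.mk P y', ?_⟩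
      rw [iterateFrobenius_def, ← hf, ← map_pow, hyq]
  let e : (𝓞 Qb ⧸ P) ≃ₐ[𝓞 K ⧸ below j P] (𝓞 Qb ⧸ P) :=
    AlgEquiv.ofRingEquiv (f := RingEquiv.ofBijective (iterateFrobenius (𝓞 Qb ⧸ P) l f) hbij) (by
      intro r
      obtain ⟨x, rfl⟩ := Ideal.Quotient.mk_surjective r
      change iterateFrobenius (𝓞 Qb ⧸ P) l f
        (Ideal.Quotient.mk P (RingOfIntegers.mapRingHom j x)) =
        Ideal.Quotient.mk P (RingOfIntegers.mapRingHom j x)
      rw [iterateFrobenius_def, ← hf, ← map_pow, Ideal.Quotient.eq, ← map_pow, ← map_sub]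
      exact hres x)
  obtain ⟨g, hg⟩ := Ideal.Quotient.stabilizerHom_surjective_of_profinite (G := GK j)
    (below j P) P e
  refine ⟨g.1, fun x => ?_⟩
  have h1 := DFunLike.congr_fun hg (Ideal.Quotient.mk P x)
  have h2 : e (Ideal.Quotient.mk P x) = Ideal.Quotient.mk P (x ^ q) := by
    change iterateFrobenius (𝓞 Qb ⧸ P) l f (Ideal.Quotient.mk P x) = _
    rw [iterateFrobenius_def, ← hf, ← map_pow]
  rw [h2] at h1
  rw [← Ideal.Quotient.eq]
  exact h1

end

/-- **every prime number has Frobenius elements in `G_ℚ`** -/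
theorem exists_isFrob {l : ℕ} (hl : l.Prime) : ∃ g : GQ, IsFrob l g := by
  obtain ⟨P, hP, hlP⟩ := H916.exists_prime hl
  obtain ⟨g, hg⟩ := exists_frob (algebraMap ℚ Qb) hP hl hlP
  refine ⟨g, P, hP, hlP, ?_⟩
  have hn : Ideal.absNorm (below (algebraMap ℚ Qb) P) = l := by
    have hbp := below_prime (algebraMap ℚ Qb) hP
    have hlb := l_mem_below (algebraMap ℚ Qb) hlP
    have hd : Ideal.absNorm (below (algebraMap ℚ Qb) P) ∣ l := by
      have h1 : Ideal.absNorm (Ideal.span {(l : 𝓞 ℚ)}) = l := by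
        rw [Ideal.absNorm_span_natCast, RingOfIntegers.rank, Module.finrank_self, pow_one]
      conv_rhs => rw [← h1]
      apply Ideal.absNorm_dvd_absNorm_of_le
      rw [Ideal.span_singleton_le_iff_mem]; exact hlb
    rcases (Nat.dvd_prime hl).1 hd with h | h
    · exfalso
      rw [Ideal.absNorm_eq_one_iff] at h
      exact hbp.ne_top h
    · exact h
  rw [hn] at hg
  exact hg

end Vale.Agent.P022.H20
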