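import Mathlib

/-! # P022: the literal Galois side (definitions)

`G_ℚ = Gal(ℚ̄/ℚ)` with the Krull topology, Frobenius elements, inertia, complex conjugations,
the subgroup `G_K`, induced representations. -/

open NumberField Matrix

noncomputable section

namespace Vale.Agent.P022

/-- the fixed algebraic closure of `ℚ` -/
abbrev Qb : Type := AlgebraicClosure ℚ

/-- the absolute Galois group of `ℚ` (Mathlib's Krull topology) -/
abbrev GQ : Type := Qb ≃ₐ[ℚ] Qb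

/-- `g` is an (arithmetic) Frobenius element at the prime `ℓ`: `g x ≡ x ^ ℓ` modulo some prime
ideal `P` above `ℓ` of the ring `𝓞 ℚ̄` of all algebraic integers -/
def IsFrob (ℓ : ℕ) (g : GQ) : Prop :=
  ∃ P : Ideal (𝓞 Qb), P.IsPrime ∧ (ℓ : 𝓞 Qb) ∈ P ∧ ∀ x : 𝓞 Qb, g • x - x ^ ℓ ∈ P

/-- `g` is a complex conjugation: it becomes the conjugation of `ℂ` under some embedding -/
def IsConj (c : GQ) : Prop := ∃ φ : Qb →+* ℂ, ∀ x, φ (c x) = starRingEnd ℂ (φ x)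

/-- the subgroup `G_K` of `G_ℚ` fixing `j(K)`, `j : K → ℚ̄` an embedding -/
def GK {K : Type*} [Field K] (j : K →+* Qb) : Subgroup GQ where
  carrier := {g | ∀ x : K, g (j x) = j x}
  mul_mem' {g h} hg hh x := by
    rw [AlgEquiv.mul_apply, hh, hg]
  one_mem' x := rfl
  inv_mem' {g} hg x := by
    have h : g⁻¹ (g (j x)) = j x := by
      rw [← AlgEquiv.mul_apply, inv_mul_cancel]; rfl
    rwa [hg x] at h

/-- the prime ideal of `𝓞 K` below a prime ideal of `𝓞 ℚ̄` -/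
def below {K : Type*} [Field K] (j : K →+* Qb) (P : Ideal (𝓞 Qb)) : Ideal (𝓞 K) :=
  P.comap (RingOfIntegers.mapRingHom j)

section

variable {E : Type*} [Field E]

/-- `r` is unramified at `ℓ`: the inertia group of every prime `P` of `𝓞 ℚ̄` above `ℓ` acts
trivially -/
def UnrAt (r : GQ →* GL (Fin 2) E) (ℓ : ℕ) : Prop :=
  ∀ P : Ideal (𝓞 Qb), P.IsPrime → (ℓ : 𝓞 Qb) ∈ P → ∀ g : GQ,
    (∀ x : 𝓞 Qb, g • x - x ∈ P) → r g = 1

/-- `r` is odd: `det r(c) = -1` for the complex conjugations `c` -/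
def OddRep (r : GQ →* GL (Fin 2) E) : Prop :=
  ∀ c : GQ, IsConj c → (r c : Matrix (Fin 2) (Fin 2) E).det = -1

/-- no line of `E²` is stable under `r` -/
def Irred (r : GQ →* GL (Fin 2) E) : Prop :=
  ∀ v : Fin 2 → E, v ≠ 0 → ∃ g : GQ, ∀ a : E, (r g : Matrix (Fin 2) (Fin 2) E) *ᵥ v ≠ a • v

/-- `r` is induced from the character `χ` of `G_K`: `G_K` acts on some vector `v` through `χ`
and the line of `v` is not stable under `G_ℚ` -/
def IsInd {K : Type*} [Field K] (j : K →+* Qb) (χ : GK j →* Eˣ) (r : GQ →* GL (Fin 2) E) : Prop :=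
  ∃ v : Fin 2 → E, (∀ h : GK j, (r h : Matrix (Fin 2) (Fin 2) E) *ᵥ v = (χ h : E) • v) ∧
    ∃ c : GQ, ∀ a : E, (r c : Matrix (Fin 2) (Fin 2) E) *ᵥ v ≠ a • v

/-- the character `χ` of `G_K` is attached to the function `ψ` on ideals (reciprocity law), away
from the primes dividing `B`: `χ` is unramified at the primes above `ℓ ∤ B`, and
`χ(Frob_𝔭) = ψ(𝔭)` -/
def Attached {K : Type*} [Field K] [NumberField K] (j : K →+* Qb) (χ : GK j →* Eˣ)
    (ψ : Ideal (𝓞 K) → E) (B : ℕ) : Prop :=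
  ∀ ℓ : ℕ, ℓ.Prime → ¬ ℓ ∣ B → ∀ P : Ideal (𝓞 Qb), P.IsPrime → (ℓ : 𝓞 Qb) ∈ P → ∀ g : GK j,
    ((∀ x : 𝓞 Qb, (g : GQ) • x - x ∈ P) → χ g = 1) ∧
    ((∀ x : 𝓞 Qb, (g : GQ) • x - x ^ Ideal.absNorm (below j P) ∈ P) →
      (χ g : E) = ψ (below j P))

end

end Vale.Agent.P022
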