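import Vale.Agent.P022.H20.Desc

/-! # P022: values of `λ` at the generators -/

noncomputable section

namespace Vale.Agent.P022

/-- the value `λ(s)` of a continuous homomorphism `λ : T₂ → 𝓞_E` at a generator `s` -/
def ContHom.val {S : Type} {V : ℕ → Type} [∀ i, Ring (V i)] {g : S → ∀ i, V i} {E : Type}
    [NontriviallyNormedField E] [NormedAlgebra ℚ_[2] E] (c : ContHom g E) (s : S) : E :=
  c.lam (gT2 g s)

namespace H20

variable {S : Type} {V : ℕ → Type} [∀ i, Ring (V i)] {g : S → ∀ i, V i}

/-- descent of coefficients in terms of the values at the generators -/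
theorem bridge {E E' : Type} [NontriviallyNormedField E] [NormedAlgebra ℚ_[2] E]
    [CompleteSpace E] [NontriviallyNormedField E'] [NormedAlgebra ℚ_[2] E'] [NormedAlgebra E E']
    [IsScalarTower ℚ_[2] E E'] (c : ContHom g E') {X : Type} (F : S → X → Prop)
    (t : S → X → E) (hex : ∀ s, ∃ x, F s x)
    (h : ∀ s x, F s x → c.val s = algebraMap E E' (t s x)) :
    ∃ c₀ : ContHom g E, ∀ s x, F s x → c₀.val s = t s x := by
  choose x hx using hex
  obtain ⟨c₀, -, hc₀⟩ := desc g c (fun s => t s (x s)) (fun s => h s _ (hx s))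
  refine ⟨c₀, fun s y hy => ?_⟩
  apply (algebraMap E E').injective
  rw [← h s y hy]
  exact hc₀ _

end H20

end Vale.Agent.P022
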