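import Vale.Agent.P022.H472.Lit2
import Vale.Agent.P022.H20.Frob
import Vale.Agent.P022.H20.Val
import Vale.Agent.P022.H724.Jac

/-! # P022: from the automorphic side to the final theorem, in the words of the problem -/

open NumberField Matrix

noncomputable section

namespace Vale.Agent.P022

/-- extension of scalars of a representation -/
def bc {E : Type} [Field E] (E' : Type) [Field E'] [Algebra E E'] (r : GQ →* GL (Fin 2) E) :
    GQ →* GL (Fin 2) E' :=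
  (Matrix.GeneralLinearGroup.map (algebraMap E E')).comp r

/-- `r` **occurs at level `N`**: it is unramified at every prime `ℓ ∤ 2N` and there is a continuous
`ℤ₂`-algebra homomorphism `λ : T₂(N) → 𝓞_E` with `λ(T_ℓ) = tr r(Frob_ℓ)` and
`λ(ℓ S_ℓ) = det r(Frob_ℓ)` for every prime `ℓ ∤ 2N` (and every Frobenius element at `ℓ`);
`λ.val (Sum.inl ℓ) = λ(T_ℓ)`, `λ.val (Sum.inr ℓ) = λ(ℓ S_ℓ)` -/
def Occurs (E : Type) [NontriviallyNormedField E] [NormedAlgebra ℚ_[2] E] (N : ℕ) [NeZero N]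
    (r : GQ →* GL (Fin 2) E) : Prop :=
  (∀ ℓ : PA N, UnrAt r ℓ.1) ∧
  ∃ lam : ContHom (gHk N) E, ∀ (ℓ : PA N) (g : GQ), IsFrob ℓ.1 g →
    lam.val (Sum.inl ℓ) = (r g : Matrix (Fin 2) (Fin 2) E).trace ∧
    lam.val (Sum.inr ℓ) = (r g : Matrix (Fin 2) (Fin 2) E).det

/-- the conclusion of Q1: `r` occurs at some odd level `N` whose prime divisors are all primes at
which `r` ramifies -/
def Q1Concl (E : Type) [NontriviallyNormedField E] [NormedAlgebra ℚ_[2] E]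
    (r : GQ →* GL (Fin 2) E) : Prop :=
  ∃ (N : ℕ) (_ : NeZero N), Odd N ∧ (∀ p : ℕ, p.Prime → p ∣ N → ¬ UnrAt r p) ∧ Occurs E N r

namespace H20

section

variable {E : Type} [Field E] {E' : Type} [Field E'] [Algebra E E']

lemma bc_coe (r : GQ →* GL (Fin 2) E) (g : GQ) :
    (bc E' r g : Matrix (Fin 2) (Fin 2) E') =
      (r g : Matrix (Fin 2) (Fin 2) E).map (algebraMap E E') := rfl

lemma bc_trace (r : GQ →* GL (Fin 2) E) (g : GQ) :
    (bc E' r g : Matrix (Fin 2) (Fin 2) E').trace =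
      algebraMap E E' (r g : Matrix (Fin 2) (Fin 2) E).trace := by
  rw [bc_coe, Matrix.trace_fin_two, Matrix.trace_fin_two, map_add]
  rfl

lemma bc_det (r : GQ →* GL (Fin 2) E) (g : GQ) :
    (bc E' r g : Matrix (Fin 2) (Fin 2) E').det =
      algebraMap E E' (r g : Matrix (Fin 2) (Fin 2) E).det := by
  rw [bc_coe, Matrix.det_fin_two, Matrix.det_fin_two, map_sub, map_mul, map_mul]
  rfl

lemma bc_eq_one {r : GQ →* GL (Fin 2) E} {g : GQ} : bc E' r g = 1 ↔ r g = 1 := by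
  constructor
  · intro h
    apply Units.ext
    have h1 : (r g : Matrix (Fin 2) (Fin 2) E).map (algebraMap E E') = 1 := by
      rw [← bc_coe, h]; rfl
    have hinj : Function.Injective (algebraMap E E') := (algebraMap E E').injective
    ext a b
    apply hinj
    have h2 := congrFun (congrFun h1 a) b
    rw [Matrix.map_apply] at h2
    rw [h2, Units.val_one, Matrix.one_apply, Matrix.one_apply]
    split_ifs <;> simp
  · intro h
    change Matrix.GeneralLinearGroup.map (algebraMap E E') (r g) = 1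
    rw [h, map_one]

lemma bc_unrAt {r : GQ →* GL (Fin 2) E} {p : ℕ} : UnrAt (bc E' r) p ↔ UnrAt r p := by
  unfold UnrAt
  simp only [bc_eq_one]

lemma bc_odd {r : GQ →* GL (Fin 2) E} : OddRep (bc E' r) ↔ OddRep r := by
  unfold OddRep
  have hinj : Function.Injective (algebraMap E E') := (algebraMap E E').injective
  constructor
  · intro h c hc
    apply hinj
    rw [← bc_det, h c hc, map_neg, map_one]
  · intro h c hc
    rw [bc_det, h c hc, map_neg, map_one]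

end

/-- **the bridge**: a continuous homomorphism with the expected values on the Hecke side gives the
occurrence of every representation which is induced, over a finite extension, from a character
attached to `ψ` -/
theorem occurs_of {K : Type} [Field K] [NumberField K] (hK : Module.finrank ℚ K = 2)
    {E E' : Type} [NontriviallyNormedField E] [NormedAlgebra ℚ_[2] E] [CompleteSpace E]
    [NontriviallyNormedField E'] [NormedAlgebra ℚ_[2] E'] [NormedAlgebra E E']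
    [IsScalarTower ℚ_[2] E E'] (N : ℕ) [NeZero N] (ψ : Ideal (𝓞 K) →* E')
    (hdisc : ∀ ℓ : PA N, ¬ (ℓ.1 : ℤ) ∣ NumberField.discr K) (s : ℕ → ℤ)
    (hs1 : ∀ ℓ : PA N, (∃ 𝔭 : Ideal (𝓞 K), Ideal.absNorm 𝔭 = ℓ.1) → s ℓ.1 = 1)
    (hs2 : ∀ ℓ : PA N, (∀ 𝔭 : Ideal (𝓞 K), Ideal.absNorm 𝔭 ≠ ℓ.1) → s ℓ.1 = -1)
    (c : ContHom (gHk N) E')
    (hc : ∀ ℓ : PA N, c.val (Sum.inl ℓ) =
        (∑ᶠ 𝔭 ∈ {𝔭 : Ideal (𝓞 K) | Ideal.absNorm 𝔭 = ℓ.1}, ψ 𝔭) ∧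
      c.val (Sum.inr ℓ) = s ℓ.1 * ψ (Ideal.span {(ℓ.1 : 𝓞 K)}))
    (j : K →+* Qb) (χ : GK j →* E'ˣ) (hatt : Attached j χ ψ (2 * N))
    (r : GQ →* GL (Fin 2) E) (hr : IsInd j χ (bc E' r)) : Occurs E N r := by
  have hgal : ∀ ℓ : PA N, _ := fun ℓ => gal' hK j χ ψ (2 * N)
    (fun 𝔭 𝔮 _ _ _ _ => map_mul ψ 𝔭 𝔮) hatt (bc E' r) hr ℓ.2.1 ℓ.2.2 (hdisc ℓ)
  have hkey : ∀ (ℓ : PA N) (g : GQ), IsFrob ℓ.1 g →
      c.val (Sum.inl ℓ) = algebraMap E E' (r g : Matrix (Fin 2) (Fin 2) E).trace ∧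
      c.val (Sum.inr ℓ) = algebraMap E E' (r g : Matrix (Fin 2) (Fin 2) E).det := by
    intro ℓ g hg
    obtain ⟨h1, h2⟩ := (hgal ℓ).2 g hg
    obtain ⟨h3, h4⟩ := hc ℓ
    rw [← bc_trace, ← bc_det, h3, h4, h1]
    refine ⟨rfl, ?_⟩
    rcases h2 with ⟨h5, h6⟩ | ⟨h5, h6⟩
    · rw [h6, hs1 ℓ h5]; simp
    · rw [h6, hs2 ℓ h5]; simp
  obtain ⟨c₀, hc₀⟩ := bridge c
    (Sum.elim (fun ℓ g => IsFrob ℓ.1 g) (fun ℓ g => IsFrob ℓ.1 g))
    (Sum.elim (fun _ g => (r g : Matrix (Fin 2) (Fin 2) E).trace)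
      (fun _ g => (r g : Matrix (Fin 2) (Fin 2) E).det))
    (by
      rintro (ℓ | ℓ)
      · exact exists_isFrob ℓ.2.1
      · exact exists_isFrob ℓ.2.1)
    (by
      rintro (ℓ | ℓ) g hg
      · exact (hkey ℓ g hg).1
      · exact (hkey ℓ g hg).2)
  exact ⟨fun ℓ => bc_unrAt.1 (hgal ℓ).1, c₀, fun ℓ g hg => ⟨hc₀ (Sum.inl ℓ) g hg,
    hc₀ (Sum.inr ℓ) g hg⟩⟩

/-- the sign of `JACStmt` -/
lemma sign_of_jac {K : Type} [Field K] [NumberField K] (hK : Module.finrank ℚ K = 2) {ℓ : ℕ}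
    (hℓ : ℓ.Prime) {t : ℤ}
    (h : (t = 1 ∧ ∃ 𝔭 𝔮 : Ideal (𝓞 K), 𝔭 ≠ 𝔮 ∧ 𝔭.IsPrime ∧ 𝔮.IsPrime ∧
      Ideal.absNorm 𝔭 = ℓ ∧ Ideal.absNorm 𝔮 = ℓ ∧ 𝔭 * 𝔮 = Ideal.span {(ℓ : 𝓞 K)}) ∨
      (t = -1 ∧ (Ideal.span {(ℓ : 𝓞 K)}).IsPrime)) :
    ((∃ 𝔭 : Ideal (𝓞 K), Ideal.absNorm 𝔭 = ℓ) → t = 1) ∧
    ((∀ 𝔭 : Ideal (𝓞 K), Ideal.absNorm 𝔭 ≠ ℓ) → t = -1) := by
  rcases h with ⟨h1, 𝔭, 𝔮, _, _, _, h2, _⟩ | ⟨h1, h2⟩
  · exact ⟨fun _ => h1, fun h => absurd h2 (h 𝔭)⟩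
  · refine ⟨?_, fun _ => h1⟩
    rintro ⟨𝔭, h𝔭⟩
    exfalso
    have h3 := norm_of_norm hK hℓ h2 (Ideal.mem_span_singleton_self _) h𝔭
    rw [absNorm_span_l hK] at h3
    have := hℓ.two_le
    nlinarith

end H20

/-- **stage 1**: imaginary quadratic field of odd discriminant -/
theorem H20.fin1 (hM : MAIN1Stmt) (K : Type) [Field K] [NumberField K]
    [Algebra.IsQuadraticExtension ℚ K] [NumberField.IsTotallyComplex K]
    (D : ℕ) (hD : NumberField.discr K = -(D : ℤ)) (hDo : Odd D)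
    (E E' : Type) [NontriviallyNormedField E] [NormedAlgebra ℚ_[2] E]
    [FiniteDimensional ℚ_[2] E] [NontriviallyNormedField E'] [NormedAlgebra ℚ_[2] E']
    [IsUltrametricDist E'] [FiniteDimensional ℚ_[2] E'] [NormedAlgebra E E']
    [IsScalarTower ℚ_[2] E E'] (ι : K →+* E') (m : ℕ) (hm : Odd m) [NeZero (D * m ^ 2)]
    (ψ : Ideal (𝓞 K) →* E') (hψ : Cont ι m ψ) (j : K →+* Qb) (χ : GK j →* E'ˣ)
    (hatt : Attached j χ ψ (2 * (D * m ^ 2))) (r : GQ →* GL (Fin 2) E)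
    (hr : IsInd j χ (bc E' r)) :
    OddRep r ∧ Occurs E (D * m ^ 2) r ∧
      ((∀ p : ℕ, p.Prime → p ∣ m → ¬ UnrAt r p) → Q1Concl E r) := by
  have hK : Module.finrank ℚ K = 2 := Algebra.IsQuadraticExtension.finrank_eq_two ℚ K
  have hcE : CompleteSpace E := FiniteDimensional.complete ℚ_[2] E
  obtain ⟨c, hc⟩ := hM K D hD hDo E' ι m hm ψ hψ
  have hdisc : ∀ ℓ : PA (D * m ^ 2), ¬ (ℓ.1 : ℤ) ∣ NumberField.discr K := by
    intro ℓ h
    rw [hD, dvd_neg] at h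
    have h1 : ℓ.1 ∣ D := by exact_mod_cast h
    exact ℓ.2.2 ((h1.mul_right _).mul_left 2)
  have hsg : ∀ ℓ : PA (D * m ^ 2), _ := fun ℓ => H20.sign_of_jac hK ℓ.2.1
    (H724.JAC K D hD hDo ℓ.1 ℓ.2.1 (fun h => ℓ.2.2 (h.trans ⟨m ^ 2, by ring⟩)))
  have hocc : Occurs E (D * m ^ 2) r :=
    H20.occurs_of hK (D * m ^ 2) ψ hdisc (fun ℓ => jacobiSym (ℓ : ℤ) D)
      (fun ℓ => (hsg ℓ).1) (fun ℓ => (hsg ℓ).2) c hc j χ hatt r hr
  refine ⟨H20.bc_odd.1 (H20.odd hK j χ _ hr), hocc, fun hp => ⟨D * m ^ 2, inferInstance,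
    hDo.mul (hm.pow), ?_, hocc⟩⟩
  intro p hpp hpN
  rcases (Nat.Prime.dvd_mul hpp).1 hpN with h | h
  · intro hu
    exact H916.ramified_of_dvd_discr j hK hr hpp
      (by rw [hD, dvd_neg]; exact_mod_cast h) (H20.bc_unrAt.2 hu)
  · exact hp p hpp (hpp.dvd_of_dvd_pow h)

end Vale.Agent.P022
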