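import Vale.Agent.P022.H933.St.Def
import Vale.Agent.P022.H20.Fin

/-! # P022: the bridge to the words of the statement (third hand) -/

open scoped TensorProduct MatrixGroups ModularForm
open UpperHalfPlane Matrix CongruenceSubgroup

noncomputable section

namespace Vale.Agent.P022.H20.Br

open Vale.Agent.P022

/-! ### abstract limits -/

section abs

variable {S : Type} {V : ℕ → Type} [∀ i, Ring (V i)] {g : S → ∀ i, V i}
  {A : ℕ → Type} [∀ k, Ring (A k)] (φ : ∀ k, A k →+* ℤ_[2] ⊗[ℤ] HA g k)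
  (R : Subring (∀ k, A k))

/-- the map of the limits -/
def limMap (hR : ∀ x ∈ R, ∀ k k' (h : k ≤ k'),
    Algebra.TensorProduct.map (AlgHom.id ℤ_[2] ℤ_[2]) (resH g h) (φ k' (x k')) = φ k (x k)) : R →+* T2 g :=
  ((RingHom.pi fun k => (φ k).comp (Pi.evalRingHom A k)).comp R.subtype).codRestrict (T2 g)
    fun x => hR x.1 x.2

theorem limMap_coe (hR : ∀ x ∈ R, ∀ k k' (h : k ≤ k'),
    Algebra.TensorProduct.map (AlgHom.id ℤ_[2] ℤ_[2]) (resH g h) (φ k' (x k')) = φ k (x k)) (x : R) (k : ℕ) :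
    (limMap φ R hR x : ∀ k, ℤ_[2] ⊗[ℤ] HA g k) k = φ k (x.1 k) := rfl

/-- the transported homomorphism -/
theorem exists_lam {E : Type} [NontriviallyNormedField E] [NormedAlgebra ℚ_[2] E]
    (hR : ∀ x ∈ R, ∀ k k' (h : k ≤ k'),
    Algebra.TensorProduct.map (AlgHom.id ℤ_[2] ℤ_[2]) (resH g h) (φ k' (x k')) = φ k (x k))
    (c : ContHom g E) : ∃ lam : R →+* E,
      (∀ (x : R) (s : S), (∀ k, φ k (x.1 k) = 1 ⊗ₜ gH g k s) → lam x = c.val s) ∧
      (∀ (x : R) (z : ℤ_[2]), (∀ k, φ k (x.1 k) = z ⊗ₜ 1) → lam x = algebraMap ℚ_[2] E z) ∧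
      (∀ x, ‖lam x‖ ≤ 1) ∧
      ∀ ε : ℝ, 0 < ε → ∃ k n : ℕ, ∀ x : R, (∃ y : A k, x.1 k = (2 ^ n : ℕ) • y) →
        ‖lam x‖ < ε := by
  refine ⟨c.lam.comp (limMap φ R hR), fun x s hx => ?_, fun x z hx => ?_, fun x => ?_,
    fun ε hε => ?_⟩
  · have h1 : limMap φ R hR x = gT2 g s := by
      apply Subtype.ext
      funext k
      exact hx k
    change c.lam (limMap φ R hR x) = _
    rw [h1]
    rfl
  · have h1 : limMap φ R hR x = algebraMap ℤ_[2] (T2 g) z := by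
      apply Subtype.ext
      funext k
      exact hx k
    change c.lam (limMap φ R hR x) = _
    rw [h1]
    exact c.lam_alg z
  · exact c.lam_le _
  · obtain ⟨k, n, h⟩ := c.lam_cont ε hε
    refine ⟨k, n, fun x hx => ?_⟩
    obtain ⟨y, hy⟩ := hx
    apply h
    refine ⟨φ k y, ?_⟩
    rw [limMap_coe, hy, map_nsmul]
    norm_cast

end abs

/-! ### the operators -/

/-- the same operators -/
def eW (N k : ℕ) : St.EndW N k →+* EW (fun i => Module.End ℂ (MF N (i + 1))) k :=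
  RingHom.pi fun i => (Pi.evalRingHom (fun i : Fin k => Module.End ℂ (St.M N (i + 1))) i : _)

theorem hecke_eq {N : ℕ} [NeZero N] (k : ℕ) (ℓ : PA N) (f : MF N k) :
    St.hecke k ℓ f = H783.Tl k ℓ f := St.hecke_eq0 k ℓ f (St.hecke_ex k ℓ f)

theorem dia_eq {N : ℕ} [NeZero N] (k : ℕ) (ℓ : PA N) (f : MF N k) :
    St.dia k ℓ f = H783.dia k ℓ f := St.dia_eq0 k ℓ f (St.dia_ex k ℓ f)

theorem eW_T (N : ℕ) [NeZero N] (k : ℕ) (ℓ : PA N) :
    eW N k (St.opT N k ℓ) = gk (gHk N) k (Sum.inl ℓ) := by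
  funext i
  exact LinearMap.ext fun f => hecke_eq (i + 1) ℓ f

theorem eW_S (N : ℕ) [NeZero N] (k : ℕ) (ℓ : PA N) :
    eW N k (St.opS N k ℓ) = gk (gHk N) k (Sum.inr ℓ) := by
  funext i
  exact LinearMap.ext fun f => congrArg (fun u : MF N (i + 1) => ((ℓ.1 : ℂ) ^ (i : ℕ)) • u)
    (dia_eq (i + 1) ℓ f)

theorem eW_mem (N : ℕ) [NeZero N] (k : ℕ) (x : St.EndW N k) (hx : x ∈ St.TA N k) :
    eW N k x ∈ (HA (gHk N) k).toSubring := by
  have h1 : St.TA N k ≤ ((HA (gHk N) k).toSubring).comap (eW N k) := by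
    refine Subring.closure_le.2 ?_
    rintro _ (⟨ℓ, rfl⟩ | ⟨ℓ, rfl⟩)
    · change eW N k (St.opT N k ℓ) ∈ HA (gHk N) k
      rw [eW_T]
      exact Algebra.subset_adjoin ⟨_, rfl⟩
    · change eW N k (St.opS N k ℓ) ∈ HA (gHk N) k
      rw [eW_S]
      exact Algebra.subset_adjoin ⟨_, rfl⟩
  exact h1 hx

/-- `T_{≤ k}(N)`, new and old -/
def eR (N : ℕ) [NeZero N] (k : ℕ) : St.TR N k →+* HA (gHk N) k :=
  ((eW N k).comp (St.TA N k).subtype).codRestrict (HA (gHk N) k).toSubring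
    fun x => eW_mem N k x.1 x.2

theorem eR_coe (N : ℕ) [NeZero N] (k : ℕ) (x : St.TR N k) :
    (eR N k x : EW (fun i => Module.End ℂ (MF N (i + 1))) k) = eW N k x.1 := rfl

theorem eR_res (N : ℕ) [NeZero N] {k k' : ℕ} (h : k ≤ k') (x : St.TR N k') :
    resH (gHk N) h (eR N k' x) = eR N k (St.resR N h x) := by
  apply Subtype.ext
  rfl

/-- `ℤ₂ ⊗ T_{≤ k}(N)`, new and old -/
def eZ (N : ℕ) [NeZero N] (k : ℕ) : St.TZ N k →+* ℤ_[2] ⊗[ℤ] HA (gHk N) k :=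
  (Algebra.TensorProduct.map (AlgHom.id ℤ ℤ_[2]) (eR N k).toIntAlgHom).toRingHom

theorem eZ_tz (N : ℕ) [NeZero N] (k : ℕ) (z : ℤ_[2]) (t : St.TR N k) :
    eZ N k (St.tz N k z t) = z ⊗ₜ eR N k t :=
  Algebra.TensorProduct.map_tmul (AlgHom.id ℤ ℤ_[2]) (eR N k).toIntAlgHom z t

theorem eZ_res (N : ℕ) [NeZero N] {k k' : ℕ} (h : k ≤ k') (x : St.TZ N k') :
    Algebra.TensorProduct.map (AlgHom.id ℤ_[2] ℤ_[2]) (resH (gHk N) h) (eZ N k' x) =
      eZ N k (St.resZ N h x) := by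
  have key : ∀ y : ℤ_[2] ⊗[ℤ] St.TR N k',
      Algebra.TensorProduct.map (AlgHom.id ℤ_[2] ℤ_[2]) (resH (gHk N) h)
        (Algebra.TensorProduct.map (AlgHom.id ℤ ℤ_[2]) (eR N k').toIntAlgHom y) =
      Algebra.TensorProduct.map (AlgHom.id ℤ ℤ_[2]) (eR N k).toIntAlgHom
        (Algebra.TensorProduct.map (AlgHom.id ℤ ℤ_[2]) (St.resR N h).toIntAlgHom y) := by
    intro y
    induction y using TensorProduct.induction_on with
    | zero => simp only [map_zero]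
    | add a b ha hb => simp only [map_add, ha, hb]
    | tmul z t =>
      rw [Algebra.TensorProduct.map_tmul, Algebra.TensorProduct.map_tmul,
        Algebra.TensorProduct.map_tmul, Algebra.TensorProduct.map_tmul]
      exact congrArg (fun u => z ⊗ₜ[ℤ] u) (eR_res N h t)
  exact key x

/-- the homomorphism `lam` in the words of the statement -/
theorem exists_St {N : ℕ} [NeZero N] {E : Type} [NontriviallyNormedField E]
    [NormedAlgebra ℚ_[2] E] (c : ContHom (gHk N) E) : ∃ lam : St.T2 N →+* E,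
      St.IsContHom N lam ∧ ∀ ℓ : PA N, lam (St.elT N ℓ) = c.val (Sum.inl ℓ) ∧
        lam (St.elS N ℓ) = c.val (Sum.inr ℓ) := by
  obtain ⟨lam, h1, h2, h3, h4⟩ := exists_lam (eZ N) (St.T2s N)
    (fun x hx k k' h => (eZ_res N h (x k')).trans (congrArg (eZ N k) (hx k k' h))) c
  refine ⟨lam, ⟨fun z => ?_, h3, h4⟩, fun ℓ => ⟨?_, ?_⟩⟩
  · exact h2 (St.elZ N z) z fun k => (eZ_tz N k z 1).trans (congrArg (fun u => z ⊗ₜ[ℤ] u)
      (map_one (eR N k)))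
  · exact h1 (St.elT N ℓ) (Sum.inl ℓ) fun k => (eZ_tz N k 1 _).trans
      (congrArg (fun u => 1 ⊗ₜ[ℤ] u) (Subtype.ext (eW_T N k ℓ)))
  · exact h1 (St.elS N ℓ) (Sum.inr ℓ) fun k => (eZ_tz N k 1 _).trans
      (congrArg (fun u => 1 ⊗ₜ[ℤ] u) (Subtype.ext (eW_S N k ℓ)))

theorem occurs {N : ℕ} [NeZero N] {E : Type} [NontriviallyNormedField E]
    [NormedAlgebra ℚ_[2] E] (r : GQ →* GL (Fin 2) E) (h : Occurs E N r) : St.Occurs N r := by
  obtain ⟨h1, c, h2⟩ := h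
  obtain ⟨lam, h3, h4⟩ := exists_St c
  exact ⟨h1, lam, h3, fun ℓ g hg => ⟨(h4 ℓ).1.trans (h2 ℓ g hg).1, (h4 ℓ).2.trans (h2 ℓ g hg).2⟩⟩

/-- **the bridge** -/
theorem q1 {E : Type} [NontriviallyNormedField E] [NormedAlgebra ℚ_[2] E]
    (r : GQ →* GL (Fin 2) E) (h : Q1Concl E r) : St.Q1Concl r := by
  obtain ⟨N, hN, h1, h2, h3⟩ := h
  exact ⟨N, hN, h1, h2, occurs r h3⟩

end Vale.Agent.P022.H20.Br
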