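import Vale.Agent.P022.H472.Big

/-! # P022: descent of coefficients for continuous homomorphisms `T₂ → 𝓞_E'` -/

open scoped TensorProduct

noncomputable section

namespace Vale.Agent.P022.H20

open Vale.Agent.P022

variable {S : Type} {V : ℕ → Type} [∀ i, Ring (V i)] (g : S → ∀ i, V i)

/-- the component at level `k` -/
def compK (k : ℕ) : T2 g →ₐ[ℤ_[2]] ℤ_[2] ⊗[ℤ] HA g k :=
  (Pi.evalAlgHom ℤ_[2] (fun k => ℤ_[2] ⊗[ℤ] HA g k) k).comp (T2 g).val

lemma compK_apply (k : ℕ) (x : T2 g) :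
    compK g k x = (x : ∀ k, ℤ_[2] ⊗[ℤ] HA g k) k := rfl

/-- the `ℤ₂`-algebra generated by the generators maps onto every level -/
lemma exists_comp_eq (k : ℕ) (t : ℤ_[2] ⊗[ℤ] HA g k) :
    ∃ y ∈ Algebra.adjoin ℤ_[2] (Set.range (gT2 g)), compK g k y = t := by
  have h1 : ∀ (h : EW V k) (hh : h ∈ HA g k),
      ∃ y ∈ Algebra.adjoin ℤ_[2] (Set.range (gT2 g)), compK g k y = 1 ⊗ₜ ⟨h, hh⟩ := by
    intro h hh
    refine Algebra.adjoin_induction
      (p := fun h hh => ∃ y ∈ Algebra.adjoin ℤ_[2] (Set.range (gT2 g)),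
        compK g k y = 1 ⊗ₜ[ℤ] (⟨h, hh⟩ : HA g k)) ?_ ?_ ?_ ?_ hh
    · rintro _ ⟨s, rfl⟩
      exact ⟨gT2 g s, Algebra.subset_adjoin ⟨s, rfl⟩, rfl⟩
    · intro n
      refine ⟨algebraMap ℤ_[2] _ (n : ℤ_[2]), Subalgebra.algebraMap_mem _ _, ?_⟩
      rw [AlgHom.commutes, Algebra.TensorProduct.algebraMap_apply]
      have h2 : ((n : ℤ_[2]) : ℤ_[2]) = n • (1 : ℤ_[2]) := by simp
      rw [Algebra.algebraMap_self_apply, h2, TensorProduct.smul_tmul]
      congr 1
      apply Subtype.ext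
      simp [Algebra.smul_def]
    · rintro x y hx hy ⟨a, ha, ha'⟩ ⟨b, hb, hb'⟩
      refine ⟨a + b, Subalgebra.add_mem _ ha hb, ?_⟩
      rw [map_add, ha', hb', ← TensorProduct.tmul_add]
      rfl
    · rintro x y hx hy ⟨a, ha, ha'⟩ ⟨b, hb, hb'⟩
      refine ⟨a * b, Subalgebra.mul_mem _ ha hb, ?_⟩
      rw [map_mul, ha', hb', Algebra.TensorProduct.tmul_mul_tmul, one_mul]
      rfl
  induction t using TensorProduct.induction_on with
  | zero => exact ⟨0, Subalgebra.zero_mem _, map_zero _⟩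
  | tmul z h =>
    obtain ⟨y, hy, hy'⟩ := h1 h.1 h.2
    refine ⟨z • y, Subalgebra.smul_mem _ hy z, ?_⟩
    rw [map_smul, hy', TensorProduct.smul_tmul', smul_eq_mul, mul_one]
  | add a b ha hb =>
    obtain ⟨y, hy, hy'⟩ := ha
    obtain ⟨z, hz, hz'⟩ := hb
    exact ⟨y + z, Subalgebra.add_mem _ hy hz, by rw [map_add, hy', hz']⟩

/-- two continuous homomorphisms: the values at the generators decide whether the values lie in
a closed subfield -/
lemma mem_closed {E' : Type} [NontriviallyNormedField E'] [NormedAlgebra ℚ_[2] E']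
    (c' : ContHom g E') (R : Subring E') (hR : IsClosed (R : Set E'))
    (hz : ∀ z : ℤ_[2], algebraMap ℚ_[2] E' z ∈ R) (hs : ∀ s, c'.lam (gT2 g s) ∈ R) (x : T2 g) :
    c'.lam x ∈ R := by
  have h1 : ∀ y ∈ Algebra.adjoin ℤ_[2] (Set.range (gT2 g)), c'.lam y ∈ R := by
    intro y hy
    refine Algebra.adjoin_induction (p := fun y _ => c'.lam y ∈ R) ?_ ?_ ?_ ?_ hy
    · rintro _ ⟨s, rfl⟩; exact hs s
    · intro z; rw [c'.lam_alg]; exact hz z
    · intro a b _ _ ha hb; rw [RingHom.map_add c'.lam a b]; exact R.add_mem ha hb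
    · intro a b _ _ ha hb; rw [RingHom.map_mul c'.lam a b]; exact R.mul_mem ha hb
  have h2 : c'.lam x ∈ closure (R : Set E') := by
    rw [Metric.mem_closure_iff]
    intro ε hε
    obtain ⟨k, M, hkM⟩ := c'.lam_cont ε hε
    obtain ⟨y, hy, hy'⟩ := exists_comp_eq g k (compK g k x)
    refine ⟨c'.lam y, h1 y hy, ?_⟩
    rw [dist_eq_norm, ← RingHom.map_sub c'.lam x y]
    apply hkM
    refine ⟨0, ?_⟩
    rw [smul_zero]
    have h3 : compK g k (x - y) = 0 := by
      have h4 : compK g k (x - y) = compK g k x - compK g k y :=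
        RingHom.map_sub (compK g k).toRingHom x y
      rw [h4, hy', sub_self]
    exact h3
  rwa [hR.closure_eq] at h2

/-- **[DESC]** descent of coefficients -/
theorem desc {E E' : Type} [NontriviallyNormedField E] [NormedAlgebra ℚ_[2] E] [CompleteSpace E]
    [NontriviallyNormedField E'] [NormedAlgebra ℚ_[2] E'] [NormedAlgebra E E']
    [IsScalarTower ℚ_[2] E E'] (c' : ContHom g E') (a : S → E)
    (h : ∀ s, c'.lam (gT2 g s) = algebraMap E E' (a s)) :
    ∃ c : ContHom g E, (∀ s, c.lam (gT2 g s) = a s) ∧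
      ∀ x, algebraMap E E' (c.lam x) = c'.lam x := by
  have hiso : Isometry (algebraMap E E') := algebraMap_isometry E E'
  have hcl : IsClosed ((algebraMap E E').range : Set E') := by
    rw [RingHom.coe_range]
    exact hiso.isClosedEmbedding.isClosed_range
  have hmem : ∀ x, c'.lam x ∈ (algebraMap E E').range := by
    refine mem_closed g c' _ hcl ?_ ?_
    · intro z
      rw [IsScalarTower.algebraMap_apply ℚ_[2] E E']
      exact ⟨_, rfl⟩
    · intro s; rw [h s]; exact ⟨_, rfl⟩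
  choose f hf using hmem
  have hinj : Function.Injective (algebraMap E E') := (algebraMap E E').injective
  have hn : ∀ x, ‖f x‖ = ‖c'.lam x‖ := by
    intro x
    rw [← hf x, norm_algebraMap']
  let L : T2 g →+* E :=
    { toFun := f
      map_one' := hinj (by rw [hf, RingHom.map_one c'.lam, map_one])
      map_mul' := fun x y => hinj (by rw [hf, RingHom.map_mul c'.lam x y, map_mul, hf, hf])
      map_zero' := hinj (by rw [hf, RingHom.map_zero c'.lam, map_zero])
      map_add' := fun x y => hinj (by rw [hf, RingHom.map_add c'.lam x y, map_add, hf, hf]) }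
  refine ⟨⟨L, ?_, ?_, ?_⟩, ?_, ?_⟩
  · intro z
    apply hinj
    change algebraMap E E' (f _) = _
    rw [hf, c'.lam_alg, ← IsScalarTower.algebraMap_apply]
  · intro x
    change ‖f x‖ ≤ 1
    rw [hn]; exact c'.lam_le x
  · intro ε hε
    obtain ⟨k, M, hkM⟩ := c'.lam_cont ε hε
    refine ⟨k, M, fun x hx => ?_⟩
    change ‖f x‖ < ε
    rw [hn]; exact hkM x hx
  · intro s
    apply hinj
    change algebraMap E E' (f _) = _
    rw [hf, h s]
  · intro x
    exact hf x

end Vale.Agent.P022.H20
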