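import Vale.Agent.P022.H20.Fin
import Vale.Agent.P022.H933.Ext2
import Vale.Agent.P022.H472.Lit4

/-! # P022: final theorem, stages 2 (every imaginary quadratic field) and 3 (real quadratic) -/

open NumberField Matrix Module Ideal

set_option linter.unusedSectionVars false

noncomputable section

namespace Vale.Agent.P022.H20

open Vale.Agent.P022 Vale.Agent.P022.H724

/-- an odd prime `ℓ ∤ disc K` splits or is inert according to `(disc K / ℓ)`, `K` quadratic,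
real or imaginary (proof of `H776.jacE`) -/
theorem jacG {K : Type*} [Field K] [NumberField K] [Algebra.IsQuadraticExtension ℚ K] {ℓ : ℕ}
    (hℓ : ℓ.Prime) (h2 : ℓ ≠ 2) (hdd : ¬ (ℓ : ℤ) ∣ discr K) :
    (jacobiSym (discr K) ℓ = 1 ∧ ∃ 𝔭 𝔮 : Ideal (𝓞 K), 𝔭 ≠ 𝔮 ∧ 𝔭.IsPrime ∧ 𝔮.IsPrime ∧
      Ideal.absNorm 𝔭 = ℓ ∧ Ideal.absNorm 𝔮 = ℓ ∧ 𝔭 * 𝔮 = Ideal.span {(ℓ : 𝓞 K)}) ∨
    (jacobiSym (discr K) ℓ = -1 ∧ (Ideal.span {(ℓ : 𝓞 K)}).IsPrime) := by
  have : Fact ℓ.Prime := ⟨hℓ⟩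
  obtain ⟨B⟩ := exists_qb (K := K) (Algebra.IsQuadraticExtension.finrank_eq_two ℚ K)
  have hd0 : ((discr K : ℤ) : ZMod ℓ) ≠ 0 := by
    intro h
    exact hdd ((ZMod.intCast_zmod_eq_zero_iff_dvd _ _).mp h)
  rw [← jacobiSym.legendreSym.to_jacobiSym]
  by_cases h : ∃ s : ℤ, (ℓ : ℤ) ∣ discr K - s ^ 2
  · obtain ⟨s, hs⟩ := h
    left
    have hs' : (ℓ : ℤ) ∣ discr K - (-s) ^ 2 := by rwa [neg_sq]
    refine ⟨(legendreSym.eq_one_iff ℓ hd0).mpr ⟨(s : ZMod ℓ), ?_⟩, B.pr ℓ s, B.pr ℓ (-s),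
      B.pr_ne h2 hdd hs, ?_, ?_, B.norm_pr h2 hdd hs, B.norm_pr h2 hdd hs', B.pr_mul h2 hdd hs⟩
    · have := (ZMod.intCast_zmod_eq_zero_iff_dvd _ _).mpr hs
      push_cast at this
      linear_combination this
    · exact Ideal.isPrime_of_irreducible_absNorm (by rw [B.norm_pr h2 hdd hs]; exact hℓ)
    · exact Ideal.isPrime_of_irreducible_absNorm (by rw [B.norm_pr h2 hdd hs']; exact hℓ)
  · right
    refine ⟨(legendreSym.eq_neg_one_iff ℓ).mpr ?_, ?_⟩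
    · rintro ⟨s, hs⟩
      apply h
      refine ⟨(s.val : ℤ), ?_⟩
      rw [← ZMod.intCast_zmod_eq_zero_iff_dvd]
      push_cast
      rw [ZMod.natCast_zmod_val, hs]
      ring
    · have hN : absNorm (span {(ℓ : 𝓞 K)}) = ℓ ^ 2 := by
        rw [absNorm_span_natCast, B.finrank_int]
      have hirr : Irreducible (span {(ℓ : 𝓞 K)}) := by
        refine irreducible_iff.mpr ⟨?_, ?_⟩
        · rw [Ideal.isUnit_iff, ← absNorm_eq_one_iff, hN]
          have := hℓ.one_lt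
          nlinarith
        · intro a b hab
          rw [Ideal.isUnit_iff, Ideal.isUnit_iff, ← absNorm_eq_one_iff, ← absNorm_eq_one_iff]
          by_contra hcon
          rw [not_or] at hcon
          rw [hab, map_mul] at hN
          have := ((Nat.Prime.mul_eq_prime_sq_iff hℓ hcon.1 hcon.2).mp hN).1
          exact h (B.exists_sq_of_norm this)
      exact Ideal.isPrime_of_prime (UniqueFactorizationMonoid.irreducible_iff_prime.mp hirr)

section

variable {K : Type} [Field K] [NumberField K] [Algebra.IsQuadraticExtension ℚ K]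
  {E E' : Type} [NontriviallyNormedField E] [NormedAlgebra ℚ_[2] E] [CompleteSpace E]
  [NontriviallyNormedField E'] [NormedAlgebra ℚ_[2] E'] [NormedAlgebra E E']
  [IsScalarTower ℚ_[2] E E']

/-- `ℓ ∤ 2 D₁ m²` is odd and does not divide `disc K = ± D₁ 2^e` -/
lemma pa_disc {D₁ e m : ℕ} (hD : (discr K).natAbs = D₁ * 2 ^ e) (ℓ : PA (D₁ * m ^ 2)) :
    ℓ.1 ≠ 2 ∧ ¬ (ℓ.1 : ℤ) ∣ discr K := by
  have h2 : ℓ.1 ≠ 2 := fun h => ℓ.2.2 (by rw [h]; exact dvd_mul_right _ _)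
  refine ⟨h2, fun h => ?_⟩
  have h1 : ℓ.1 ∣ D₁ * 2 ^ e := by
    rw [← hD]
    exact Int.natCast_dvd.1 h
  rcases (Nat.Prime.dvd_mul ℓ.2.1).1 h1 with h3 | h3
  · exact ℓ.2.2 ((h3.mul_right _).mul_left 2)
  · exact h2 ((Nat.prime_dvd_prime_iff_eq ℓ.2.1 Nat.prime_two).1
      (ℓ.2.1.dvd_of_dvd_pow h3))

/-- the bridge with the sign `(disc K / ℓ)` -/
theorem occurs_of_sign {D₁ e m : ℕ} (hD : (discr K).natAbs = D₁ * 2 ^ e) [NeZero (D₁ * m ^ 2)]
    (ψ : Ideal (𝓞 K) →* E') (s : ℕ → ℤ)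
    (hs : ∀ ℓ : PA (D₁ * m ^ 2), s ℓ.1 = jacobiSym (discr K) ℓ.1)
    (c : ContHom (gHk (D₁ * m ^ 2)) E')
    (hc : ∀ ℓ : PA (D₁ * m ^ 2), c.val (Sum.inl ℓ) =
        (∑ᶠ 𝔭 ∈ {𝔭 : Ideal (𝓞 K) | Ideal.absNorm 𝔭 = ℓ.1}, ψ 𝔭) ∧
      c.val (Sum.inr ℓ) = s ℓ.1 * ψ (Ideal.span {(ℓ.1 : 𝓞 K)}))
    (j : K →+* Qb) (χ : GK j →* E'ˣ) (hatt : Attached j χ ψ (2 * (D₁ * m ^ 2)))
    (r : GQ →* GL (Fin 2) E) (hr : IsInd j χ (bc E' r)) : Occurs E (D₁ * m ^ 2) r := by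
  have hK : Module.finrank ℚ K = 2 := Algebra.IsQuadraticExtension.finrank_eq_two ℚ K
  have hsg : ∀ ℓ : PA (D₁ * m ^ 2), _ := fun ℓ => sign_of_jac hK ℓ.2.1
    (jacG (K := K) ℓ.2.1 (pa_disc hD ℓ).1 (pa_disc hD ℓ).2)
  exact occurs_of hK (D₁ * m ^ 2) ψ (fun ℓ => (pa_disc hD ℓ).2) s
    (fun ℓ h => (hs ℓ).trans ((hsg ℓ).1 h)) (fun ℓ h => (hs ℓ).trans ((hsg ℓ).2 h))
    c hc j χ hatt r hr

/-- the clause on the primes dividing the level -/
theorem q1_of {D₁ e m : ℕ} (hD : (discr K).natAbs = D₁ * 2 ^ e) (hD₁ : Odd D₁) (hm : Odd m)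
    [NeZero (D₁ * m ^ 2)] (j : K →+* Qb) (χ : GK j →* E'ˣ) (r : GQ →* GL (Fin 2) E)
    (hr : IsInd j χ (bc E' r)) (hp : ∀ p : ℕ, p.Prime → p ∣ m → ¬ UnrAt r p)
    (hocc : Occurs E (D₁ * m ^ 2) r) : Q1Concl E r := by
  have hK : Module.finrank ℚ K = 2 := Algebra.IsQuadraticExtension.finrank_eq_two ℚ K
  refine ⟨D₁ * m ^ 2, inferInstance, hD₁.mul hm.pow, ?_, hocc⟩
  intro p hpp hpN
  rcases (Nat.Prime.dvd_mul hpp).1 hpN with h | h
  · intro hu
    refine H916.ramified_of_dvd_discr j hK hr hpp (Int.natCast_dvd.2 ?_) (bc_unrAt.2 hu)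
    rw [hD]
    exact h.mul_right _
  · exact hp p hpp (hpp.dvd_of_dvd_pow h)

end

end H20

/-- `ψ : {ideals of 𝓞 K} → E` is a **`2`-adic Hecke character** of the quadratic field `K`, of tame
conductor dividing the odd number `m` (and of mixed signature if `K` is real): `ψ((α))` tends to
`1`, resp. to the sign of `σ(α)` for one real embedding `σ`, as `α` tends to `1` `2`-adically,
`α ≡ 1 mod m` -/
def HeckeChar {K : Type} [Field K] [NumberField K] {E : Type} [NontriviallyNormedField E]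
    (m : ℕ) (ψ : Ideal (𝓞 K) →* E) : Prop :=
  (NumberField.IsTotallyComplex K ∧ X.Cont2 m ψ) ∨ ∃ σ : K →+* ℝ, R.ContR σ m ψ

namespace H20

section Sign

variable {K : Type} [Field K] [NumberField K]

lemma discr_neg [NumberField.IsTotallyComplex K] (hK : Module.finrank ℚ K = 2) :
    discr K < 0 := by
  have h1 := NumberField.IsTotallyComplex.finrank (K := K)
  rw [hK] at h1
  have h2 : InfinitePlace.nrComplexPlaces K = 1 := by omega
  have h3 := NumberField.sign_discr K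
  rw [h2, pow_one] at h3
  exact Int.sign_eq_neg_one_iff_neg.1 h3

/-- a real quadratic field has two real embeddings -/
lemma exists_real (hK : Module.finrank ℚ K = 2) (σ₁ : K →+* ℝ) : ∃ σ₂ : K →+* ℝ, σ₁ ≠ σ₂ := by
  classical
  set φ₁ : K →+* ℂ := (Complex.ofRealHom).comp σ₁ with hφ₁
  have hc : Fintype.card (K →+* ℂ) = 2 := by rw [NumberField.Embeddings.card, hK]
  obtain ⟨φ₂, hφ₂⟩ := Fintype.exists_ne_of_one_lt_card (by rw [hc]; norm_num) φ₁
  have h3 : ∀ φ : K →+* ℂ, φ = φ₁ ∨ φ = φ₂ := by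
    intro φ
    by_contra hn
    push Not at hn
    have h4 : ({φ₁, φ₂, φ} : Finset (K →+* ℂ)).card = 3 := by
      rw [Finset.card_insert_of_notMem, Finset.card_insert_of_notMem, Finset.card_singleton]
      · simpa using hn.2.symm
      · simp only [Finset.mem_insert, Finset.mem_singleton, not_or]
        exact ⟨hφ₂.symm, hn.1.symm⟩
    have h5 : ({φ₁, φ₂, φ} : Finset (K →+* ℂ)).card ≤ Fintype.card (K →+* ℂ) :=
      Finset.card_le_univ _
    omega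
  have h4 : (starRingEnd ℂ).comp φ₂ = φ₂ := by
    rcases h3 ((starRingEnd ℂ).comp φ₂) with h | h
    · exfalso
      apply hφ₂
      ext x
      have h5 := DFunLike.congr_fun h x
      have h6 : φ₂ x = starRingEnd ℂ (φ₁ x) := by
        rw [← h5]; simp
      rw [h6, hφ₁]
      simp
    · exact h
  have hre : ∀ x, ((φ₂ x).re : ℂ) = φ₂ x := fun x =>
    Complex.conj_eq_iff_re.1 (DFunLike.congr_fun h4 x)
  refine ⟨{ toFun := fun x => (φ₂ x).re
            map_one' := by simp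
            map_zero' := by simp
            map_add' := fun x y => by simp
            map_mul' := fun x y => by
              apply Complex.ofReal_injective
              push_cast
              rw [hre, hre, hre, map_mul] }, ?_⟩
  intro he
  apply hφ₂
  ext x
  rw [← hre x, hφ₁, he]
  rfl

lemma discr_pos (hK : Module.finrank ℚ K = 2) (σ : K →+* ℝ) : 0 < discr K := by
  have h1 := InfinitePlace.card_add_two_mul_card_eq_rank K
  rw [hK] at h1
  have hre : ComplexEmbedding.IsReal ((Complex.ofRealHom).comp σ) := by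
    rw [ComplexEmbedding.isReal_iff]
    ext x
    change starRingEnd ℂ ((σ x : ℝ) : ℂ) = ((σ x : ℝ) : ℂ)
    exact Complex.conj_ofReal _
  have hne : Nonempty {w : InfinitePlace K // w.IsReal} :=
    ⟨⟨InfinitePlace.mk _, InfinitePlace.isReal_mk_iff.2 hre⟩⟩
  have h2 : InfinitePlace.nrRealPlaces K ≠ 0 := by
    classical
    exact Fintype.card_ne_zero
  have h3 : InfinitePlace.nrComplexPlaces K = 0 := by omega
  have h4 := NumberField.sign_discr K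
  rw [h3, pow_zero] at h4
  exact Int.sign_eq_one_iff_pos.1 h4

end Sign

section

variable (K : Type) [Field K] [NumberField K] [Algebra.IsQuadraticExtension ℚ K]
  (E E' : Type) [NontriviallyNormedField E] [NormedAlgebra ℚ_[2] E] [CompleteSpace E]
  [NontriviallyNormedField E'] [NormedAlgebra ℚ_[2] E'] [IsUltrametricDist E']
  [FiniteDimensional ℚ_[2] E'] [NormedAlgebra E E'] [IsScalarTower ℚ_[2] E E']

/-- **stage 2**: every imaginary quadratic field -/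
theorem occ2 (hM : X.MAIN2Stmt) [NumberField.IsTotallyComplex K] {D₁ e m : ℕ}
    (hD : (discr K).natAbs = D₁ * 2 ^ e) (hneg : discr K ≤ 0) (hD₁ : Odd D₁) (hm : Odd m)
    [NeZero (D₁ * m ^ 2)] (ι : K →+* E') (ψ : Ideal (𝓞 K) →* E') (hψ : X.Cont2 m ψ)
    (j : K →+* Qb) (χ : GK j →* E'ˣ) (hatt : Attached j χ ψ (2 * (D₁ * m ^ 2)))
    (r : GQ →* GL (Fin 2) E) (hr : IsInd j χ (bc E' r)) : Occurs E (D₁ * m ^ 2) r := by
  have hd : discr K = -((D₁ * 2 ^ e : ℕ) : ℤ) := by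
    rw [← hD]; omega
  obtain ⟨c, hc⟩ := hM K D₁ e hd hD₁ E' ι m hm ψ hψ
  refine occurs_of_sign hD ψ (fun ℓ => X.chiD (D₁ * 2 ^ e) ℓ) ?_ c hc j χ hatt r hr
  intro ℓ
  have h1 : (0 : ℤ) < ((ℓ.1 : ℕ) : ℤ) := by exact_mod_cast ℓ.2.1.pos
  simp only [X.chiD, Int.sign_eq_one_of_pos h1, Int.natAbs_natCast, one_mul, hd]

/-- **stage 3**: real quadratic fields -/
theorem occ3 (hM : R.MAIN3Stmt) {D₁ e m : ℕ}
    (hD : (discr K).natAbs = D₁ * 2 ^ e) (hpos : 0 ≤ discr K) (hD₁ : Odd D₁) (hm : Odd m)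
    [NeZero (D₁ * m ^ 2)] (ψ : Ideal (𝓞 K) →* E') (σ₁ σ₂ : K →+* ℝ) (hσ : σ₁ ≠ σ₂)
    (hψ : R.ContR σ₁ m ψ)
    (j : K →+* Qb) (χ : GK j →* E'ˣ) (hatt : Attached j χ ψ (2 * (D₁ * m ^ 2)))
    (r : GQ →* GL (Fin 2) E) (hr : IsInd j χ (bc E' r)) : Occurs E (D₁ * m ^ 2) r := by
  have hd : discr K = ((D₁ * 2 ^ e : ℕ) : ℤ) := by
    rw [← hD]; omega
  obtain ⟨c, hc⟩ := hM K D₁ e m σ₁ σ₂ hσ hd hD₁ hm E' ψ hψ
  refine occurs_of_sign hD ψ (fun ℓ => jacobiSym ((D₁ * 2 ^ e : ℕ) : ℤ) ℓ) ?_ c hc j χ hatt r hr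
  intro ℓ
  simp only [hd]

end

end H20

/-- **the final statement**: every `r : G_ℚ → GL₂(E)` which over a finite extension `E'` of `E` is
induced from `G_K`, `K` a quadratic field, by a character `χ` attached to a Hecke character `ψ` of
tame conductor dividing `m`, occurs at level `D₁ m²`, `D₁` the odd part of the discriminant of `K`;
it satisfies the conclusion of Q1 if `m` is a product of primes at which `r` ramifies -/
def FINStmt : Prop := ∀ (K : Type) [Field K] [NumberField K] [Algebra.IsQuadraticExtension ℚ K]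
  (E E' : Type) [NontriviallyNormedField E] [NormedAlgebra ℚ_[2] E] [FiniteDimensional ℚ_[2] E]
  [NontriviallyNormedField E'] [NormedAlgebra ℚ_[2] E'] [IsUltrametricDist E']
  [FiniteDimensional ℚ_[2] E'] [NormedAlgebra E E'] [IsScalarTower ℚ_[2] E E'] (_ : K →+* E')
  (m : ℕ) (_ : Odd m) (ψ : Ideal (𝓞 K) →* E') (_ : HeckeChar m ψ)
  (D₁ e : ℕ) (_ : (discr K).natAbs = D₁ * 2 ^ e) (_ : Odd D₁)
  (j : K →+* Qb) (χ : GK j →* E'ˣ) (_ : Attached j χ ψ (2 * (D₁ * m ^ 2)))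
  (r : GQ →* GL (Fin 2) E) (_ : Continuous r) (_ : IsInd j χ (bc E' r)),
  (∃ _ : NeZero (D₁ * m ^ 2), Occurs E (D₁ * m ^ 2) r) ∧
    ((∀ p : ℕ, p.Prime → p ∣ m → ¬ UnrAt r p) → Q1Concl E r) ∧
    (NumberField.IsTotallyComplex K → OddRep r)

namespace H20

theorem fin2 (hM2 : X.MAIN2Stmt) (hM3 : R.MAIN3Stmt) : FINStmt := by
  intro K _ _ _ E E' _ _ _ _ _ _ _ _ _ ι m hm ψ hψ D₁ e hD hD₁ j χ hatt r _ hr
  have hK : Module.finrank ℚ K = 2 := Algebra.IsQuadraticExtension.finrank_eq_two ℚ K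
  have hcE : CompleteSpace E := FiniteDimensional.complete ℚ_[2] E
  have hne : NeZero (D₁ * m ^ 2) := ⟨(Nat.mul_pos hD₁.pos (pow_pos hm.pos 2)).ne'⟩
  have hocc : Occurs E (D₁ * m ^ 2) r := by
    rcases hψ with ⟨hK', hψ⟩ | ⟨σ₁, hψ⟩
    · exact occ2 K E E' hM2 hD (discr_neg hK).le hD₁ hm ι ψ hψ j χ hatt r hr
    · obtain ⟨σ₂, hσ⟩ := exists_real hK σ₁
      exact occ3 K E E' hM3 hD (discr_pos hK σ₁).le hD₁ hm ψ σ₁ σ₂ hσ hψ j χ hatt r hr
  refine ⟨⟨hne, hocc⟩, fun hp => q1_of hD hD₁ hm j χ r hr hp hocc, fun hK' => ?_⟩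
  exact bc_odd.1 (odd hK j χ _ hr)

end H20

end Vale.Agent.P022
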