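import Vale.Agent.P022.H20.Fin2
import Vale.Agent.P022.H933.Main2F

/-!
P022: representations of `G_ℚ` induced from `2`-adic Hecke characters of imaginary quadratic
fields satisfy the conclusion of Q1.
-/

open NumberField Matrix
open Vale.Agent.P022

namespace Vale.Agent.P022.H20.ResA

/-- Let `K` be an imaginary quadratic field, `disc K = - D₁ 2^e` with `D₁` odd, `E ⊆ E'` finite
extensions of `ℚ₂`, `E'` containing `K`, `m` an odd number, `ψ` a multiplicative function on the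
ideals of `𝓞 K` with values in `E'` such that `ψ((α)) → 1` as `α → 1` `2`-adically, `α ≡ 1 mod m`
(a `2`-adic Hecke character), `χ : G_K → E'ˣ` a character attached to `ψ` (unramified at the primes
not above `2 D₁ m`, `χ(Frob_𝔭) = ψ(𝔭)` there), and `r : G_ℚ → GL₂(E)` a continuous representation
which over `E'` is induced from `χ`.  Then `r` is odd, it occurs at level `D₁ m²`, and it satisfies
the conclusion of Q1 if the primes dividing `m` are primes at which `r` ramifies. -/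
theorem result : ∀ (K : Type) [Field K] [NumberField K] [Algebra.IsQuadraticExtension ℚ K]
    [NumberField.IsTotallyComplex K]
    (E E' : Type) [NontriviallyNormedField E] [NormedAlgebra ℚ_[2] E] [FiniteDimensional ℚ_[2] E]
    [NontriviallyNormedField E'] [NormedAlgebra ℚ_[2] E'] [IsUltrametricDist E']
    [FiniteDimensional ℚ_[2] E'] [NormedAlgebra E E'] [IsScalarTower ℚ_[2] E E'] (_ : K →+* E')
    (m : ℕ) (_ : Odd m) (ψ : Ideal (𝓞 K) →* E')
    (_ : ∀ ε : ℝ, 0 < ε → ∃ s : ℕ, ∀ α : 𝓞 K, ((2 ^ s * m : ℕ) : 𝓞 K) ∣ α - 1 →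
      ‖ψ (Ideal.span {α}) - 1‖ < ε)
    (D₁ e : ℕ) (_ : (NumberField.discr K).natAbs = D₁ * 2 ^ e) (_ : Odd D₁)
    (j : K →+* Qb) (χ : GK j →* E'ˣ) (_ : Attached j χ ψ (2 * (D₁ * m ^ 2)))
    (r : GQ →* GL (Fin 2) E) (_ : Continuous r) (_ : IsInd j χ (bc E' r)),
    OddRep r ∧ (∃ _ : NeZero (D₁ * m ^ 2), Occurs E (D₁ * m ^ 2) r) ∧
      ((∀ p : ℕ, p.Prime → p ∣ m → ¬ UnrAt r p) → Q1Concl E r) := by
  intro K _ _ _ _ E E' _ _ _ _ _ _ _ _ _ ι m hm ψ hψ D₁ e hD hD₁ j χ hatt r _ hr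
  have hK : Module.finrank ℚ K = 2 := Algebra.IsQuadraticExtension.finrank_eq_two ℚ K
  have hcE : CompleteSpace E := FiniteDimensional.complete ℚ_[2] E
  have hne : NeZero (D₁ * m ^ 2) := ⟨(Nat.mul_pos hD₁.pos (pow_pos hm.pos 2)).ne'⟩
  have hocc : Occurs E (D₁ * m ^ 2) r :=
    H20.occ2 K E E' X.MAIN2 hD (H20.discr_neg hK).le hD₁ hm ι ψ hψ j χ hatt r hr
  exact ⟨H20.bc_odd.1 (H20.odd hK j χ _ hr), ⟨hne, hocc⟩,
    fun hp => H20.q1_of hD hD₁ hm j χ r hr hp hocc⟩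

end Vale.Agent.P022.H20.ResA
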