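import Vale.Agent.P022.H20.Fin2
import Vale.Agent.P022.H220.Dih
import Vale.Agent.P022.H567.Gch

/-! # P022: every odd dihedral representation of `G_ℚ` over a finite extension of `ℚ₂` satisfies
the conclusion of Q1 (from MAIN2, MAIN3 and reciprocity for the characters of `G_K`) -/

open NumberField Matrix Module Ideal

set_option linter.unusedSectionVars false

noncomputable section

namespace Vale.Agent.P022.H20

open Vale.Agent.P022

/-! ### the field of coefficients -/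

/-- the norm on a finite extension (after `H220.ext_aux`) -/
lemma ext_aux2 (K : Type) [Field K] (E : Type) [NontriviallyNormedField E] [NormedAlgebra ℚ_[2] E]
    [FiniteDimensional ℚ_[2] E] (F : Type) [Field F] [Algebra E F] [FiniteDimensional E F]
    (Ω : Type) [Field Ω] [Algebra E Ω] (i : F →ₐ[E] Ω) (w : Fin 2 → Ω) (w' : Fin 2 → F)
    (h : ∀ a, i (w' a) = w a) (κ : K →+* F) :
    ∃ (E' : Type) (_ : NontriviallyNormedField E') (_ : NormedAlgebra ℚ_[2] E')
      (_ : IsUltrametricDist E') (_ : FiniteDimensional ℚ_[2] E') (_ : NormedAlgebra E E')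
      (_ : IsScalarTower ℚ_[2] E E') (_ : K →+* E') (i : E' →ₐ[E] Ω) (w' : Fin 2 → E'),
      ∀ a, i (w' a) = w a := by
  have hcE : CompleteSpace E := FiniteDimensional.complete ℚ_[2] E
  have huE : IsUltrametricDist E := IsUltrametricDist.of_normedAlgebra ℚ_[2]
  let i1 : NontriviallyNormedField F := spectralNorm.nontriviallyNormedField E F
  let i2 : NormedAlgebra E F := spectralNorm.normedAlgebra E F
  let i3 : NormedAlgebra ℚ_[2] F := NormedAlgebra.restrictScalars ℚ_[2] E F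
  have i4 : IsScalarTower ℚ_[2] E F := IsScalarTower.of_algebraMap_eq fun x => rfl
  have i5 : FiniteDimensional ℚ_[2] F := FiniteDimensional.trans ℚ_[2] E F
  have i6 : IsUltrametricDist F := IsUltrametricDist.of_normedAlgebra ℚ_[2]
  exact ⟨F, i1, i3, i6, i5, i2, i4, κ, i, w', h⟩

/-- a finite extension `E'` of `E`, with its norm, containing the coordinates of `w` and `K` -/
lemma ext2 (K : Type) [Field K] [NumberField K] (E : Type) [NontriviallyNormedField E]
    [NormedAlgebra ℚ_[2] E] [FiniteDimensional ℚ_[2] E] (w : Fin 2 → AlgebraicClosure E) :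
    ∃ (E' : Type) (_ : NontriviallyNormedField E') (_ : NormedAlgebra ℚ_[2] E')
      (_ : IsUltrametricDist E') (_ : FiniteDimensional ℚ_[2] E') (_ : NormedAlgebra E E')
      (_ : IsScalarTower ℚ_[2] E E') (_ : K →+* E') (i : E' →ₐ[E] AlgebraicClosure E)
      (w' : Fin 2 → E'), ∀ a, i (w' a) = w a := by
  have hE0 : CharZero E := charZero_of_injective_algebraMap (algebraMap ℚ_[2] E).injective
  have hA0 : CharZero (AlgebraicClosure E) :=
    charZero_of_injective_algebraMap (algebraMap E (AlgebraicClosure E)).injective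
  let f : K →+* AlgebraicClosure E :=
    (IsAlgClosed.lift (R := ℚ) (S := K) (M := AlgebraicClosure E)).toRingHom
  obtain ⟨B, hB⟩ := (Module.Finite.fg_top : (⊤ : Submodule ℚ K).FG)
  let F : IntermediateField E (AlgebraicClosure E) :=
    IntermediateField.adjoin E (Set.range w ∪ f '' (B : Set K))
  have hfs : Set.Finite (Set.range w ∪ f '' (B : Set K)) :=
    (Set.finite_range w).union (B.finite_toSet.image f)
  have hfin : FiniteDimensional E F := by
    have := hfs.to_subtype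
    exact IntermediateField.finiteDimensional_adjoin fun x _ => Algebra.IsIntegral.isIntegral x
  have hmem : ∀ x : K, f x ∈ F := by
    intro x
    have hx : x ∈ Submodule.span ℚ (B : Set K) := by rw [hB]; trivial
    induction hx using Submodule.span_induction with
    | mem y hy =>
      exact IntermediateField.subset_adjoin E _ (Or.inr ⟨y, hy, rfl⟩)
    | zero => rw [map_zero]; exact F.zero_mem
    | add y z _ _ hy hz => rw [map_add]; exact F.add_mem hy hz
    | smul q y _ hy =>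
      rw [Algebra.smul_def, map_mul]
      refine F.mul_mem ?_ hy
      rw [eq_ratCast (algebraMap ℚ K), map_ratCast]
      exact SubfieldClass.ratCast_mem F q
  exact ext_aux2 K E F (AlgebraicClosure E) F.val w
    (fun a => ⟨w a, IntermediateField.subset_adjoin E _ (Or.inl ⟨a, rfl⟩)⟩) (fun a => rfl)
    (f.codRestrict F hmem)

/-! ### the signs at the real places -/

section Signs

variable {K : Type} [Field K] [NumberField K]

/-- `H542.emb_two` -/
lemma real_two (hK : finrank ℚ K = 2) {σ₁ σ₂ : K →+* ℝ} (hne : σ₁ ≠ σ₂)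
    (σ : K →+* ℝ) : σ = σ₁ ∨ σ = σ₂ := by
  classical
  by_contra hcon
  rw [not_or] at hcon
  have hinj : Function.Injective fun τ : K →+* ℝ => (Complex.ofRealHom).comp τ := by
    intro a b hab
    ext x
    exact Complex.ofReal_injective (DFunLike.congr_fun hab x)
  have h4 : (({σ₁, σ₂, σ} : Finset (K →+* ℝ)).map ⟨_, hinj⟩).card ≤
      Fintype.card (K →+* ℂ) := Finset.card_le_univ _
  rw [Finset.card_map, NumberField.Embeddings.card, hK, Finset.card_insert_of_notMem,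
    Finset.card_insert_of_notMem, Finset.card_singleton] at h4
  · omega
  · simpa using Ne.symm hcon.2
  · simp only [Finset.mem_insert, Finset.mem_singleton, not_or]
    exact ⟨hne, Ne.symm hcon.1⟩

variable {E : Type} [Field E]

/-- the two complex conjugations in `G_K`: `χ(c₁) χ(c₂) = -1` -/
lemma signs (hF : C.FREStmt) (hK : finrank ℚ K = 2) (j : K →+* Qb) (χ : GK j →* Eˣ)
    (r : GQ →* GL (Fin 2) E) (hr : IsInd j χ r) (ho : OddRep r) {σ₁ σ₂ : K →+* ℝ}
    (hne : σ₁ ≠ σ₂) {g₁ g₂ : GK j} (h₁ : C.CjI j σ₁ g₁) (h₂ : C.CjI j σ₂ g₂) :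
    (χ g₁ : E) * χ g₂ = -1 := by
  obtain ⟨c, hc, hin, -⟩ := ind_facts hK hr
  obtain ⟨-, hdet, -⟩ := hin g₁ g₁.2
  obtain ⟨Φ, hΦ1, hΦ2⟩ := h₁
  have hodd := ho g₁ ⟨Φ, hΦ2⟩
  rw [hodd] at hdet
  set g' : GK j := ⟨c⁻¹ * ((g₁ : GQ) * c), conj_mem hK hc g₁.2⟩ with hg'
  -- `c⁻¹ g₁ c` is the complex conjugation for `Φ ∘ c`
  have hcc : ∀ x : Qb, c ((g' : GQ) x) = (g₁ : GQ) (c x) := by
    intro x
    change c ((c⁻¹ * ((g₁ : GQ) * c)) x) = _
    rw [AlgEquiv.mul_apply, AlgEquiv.mul_apply]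
    have h3 : ∀ y : Qb, c (c⁻¹ y) = y := fun y => by
      rw [← AlgEquiv.mul_apply, mul_inv_cancel]; rfl
    rw [h3]
  let Φ' : Qb →+* ℂ := Φ.comp (c : Qb →+* Qb)
  have hΦ'2 : ∀ x : Qb, Φ' ((g' : GQ) x) = starRingEnd ℂ (Φ' x) := by
    intro x
    change Φ (c ((g' : GQ) x)) = starRingEnd ℂ (Φ (c x))
    rw [hcc, hΦ2]
  have hre : ∀ x : K, ((Φ' (j x)).re : ℂ) = Φ' (j x) := by
    intro x
    apply Complex.conj_eq_iff_re.1
    rw [← hΦ'2, g'.2 x]
  let τ : K →+* ℝ :=
    { toFun := fun x => (Φ' (j x)).re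
      map_one' := by simp
      map_zero' := by simp
      map_add' := fun x y => by simp
      map_mul' := fun x y => by
        apply Complex.ofReal_injective
        push_cast
        rw [hre, hre, hre, map_mul, map_mul] }
  have hτ : ∀ x : K, Φ' (j x) = (τ x : ℂ) := fun x => (hre x).symm
  have hτne : τ ≠ σ₁ := by
    intro h
    apply hc
    intro x
    apply Φ.injective
    rw [hΦ1 x, ← h, ← hτ x]
    rfl
  have hτ2 : τ = σ₂ := (real_two hK hne τ).resolve_left hτne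
  have hcj : C.CjI j σ₂ g' := ⟨Φ', fun x => by rw [← hτ2]; exact hτ x, hΦ'2⟩
  have h5 : χ g' = χ g₂ := (hF K j).2.2.1 Eˣ χ σ₂ g' g₂ hcj h₂
  rw [← h5]
  exact hdet.symm

lemma sign_sq (j : K →+* Qb) (χ : GK j →* Eˣ) {σ : K →+* ℝ} {g : GK j} (h : C.CjI j σ g) :
    (χ g : E) = 1 ∨ (χ g : E) = -1 := by
  obtain ⟨Φ, hΦ1, hΦ2⟩ := h
  have hg : g * g = 1 := by
    apply Subtype.ext
    change (g : GQ) * (g : GQ) = 1
    ext x
    change (g : GQ) ((g : GQ) x) = x
    apply Φ.injective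
    rw [hΦ2, hΦ2]
    simp
  have h1 : (χ g : E) * χ g = 1 := by
    rw [← Units.val_mul, ← map_mul, hg, map_one, Units.val_one]
  exact mul_self_eq_one_iff.1 h1

end Signs

/-! ### from reciprocity to Hecke characters -/

section Hecke

variable {K : Type} [Field K] [NumberField K]

lemma ne_zero_of_dvd {r m : ℕ} {α : 𝓞 K} (h : ((2 ^ (r + 1) * m : ℕ) : 𝓞 K) ∣ α - 1) :
    α ≠ 0 := by
  rintro rfl
  rw [zero_sub, dvd_neg] at h
  have h1 : ((2 : ℕ) : 𝓞 K) ∣ 1 :=
    dvd_trans (Nat.cast_dvd_cast (Dvd.intro_left (2 ^ r * m) (by ring))) h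
  have h2 : Ideal.span {((2 : ℕ) : 𝓞 K)} = ⊤ :=
    Ideal.span_singleton_eq_top.2 (isUnit_of_dvd_one h1)
  have h3 := Ideal.absNorm_span_natCast (S := 𝓞 K) 2
  rw [h2, Ideal.absNorm_top, RingOfIntegers.rank] at h3
  have h4 : 0 < finrank ℚ K := finrank_pos
  have h5 := Nat.one_lt_two_pow h4.ne'
  omega

variable {E : Type} [NontriviallyNormedField E] {j : K →+* Qb} {χ : GK j →* Eˣ} {m : ℕ}
  {ψ : Ideal (𝓞 K) →* E}

/-- the last clause of `C.GCHStmt` -/
def Rec (j : K →+* Qb) (χ : GK j →* Eˣ) (m : ℕ) (ψ : Ideal (𝓞 K) →* E) : Prop :=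
  ∀ (c : (K →+* ℝ) → E) (_ : ∀ (φ : K →+* ℝ) (g : GK j), C.CjI j φ g → (χ g : E) = c φ)
      (ε : ℝ), 0 < ε → ∃ r : ℕ, ∀ α : 𝓞 K, α ≠ 0 → ((2 ^ r * m : ℕ) : 𝓞 K) ∣ α - 1 →
        ‖ψ (Ideal.span {α}) * (∏ᶠ φ ∈ {φ : K →+* ℝ | φ (α : K) < 0}, c φ) - 1‖ < ε

lemma cont2_of [NumberField.IsTotallyComplex K] (h : Rec j χ m ψ) : X.Cont2 m ψ := by
  have hno : ∀ σ : K →+* ℝ, False := by
    intro σ
    have h := NumberField.IsTotallyComplex.isComplex
      (NumberField.InfinitePlace.mk ((algebraMap ℝ ℂ).comp σ))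
    rw [← NumberField.InfinitePlace.not_isReal_iff_isComplex] at h
    apply h
    refine ⟨(algebraMap ℝ ℂ).comp σ, ?_, rfl⟩
    rw [NumberField.ComplexEmbedding.isReal_iff]
    ext x
    simp [NumberField.ComplexEmbedding.conjugate]
  intro ε hε
  obtain ⟨r, hr⟩ := h (fun _ => 1) (fun φ _ _ => (hno φ).elim) ε hε
  refine ⟨r + 1, fun α hα => ?_⟩
  have h1 := hr α (ne_zero_of_dvd hα) (dvd_trans (Nat.cast_dvd_cast
    (mul_dvd_mul_right (pow_dvd_pow 2 (Nat.le_succ r)) m)) hα)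
  have h2 : (∏ᶠ φ ∈ {φ : K →+* ℝ | φ (α : K) < 0}, (1 : E)) = 1 := by
    simp
  rwa [h2, mul_one] at h1

lemma contR_of (hF : C.FREStmt) (hK : finrank ℚ K = 2) {σ₁ σ₂ : K →+* ℝ} (hne : σ₁ ≠ σ₂)
    (h : Rec j χ m ψ) {g₁ g₂ : GK j} (h₁ : C.CjI j σ₁ g₁) (h₂ : C.CjI j σ₂ g₂)
    (e₁ : (χ g₁ : E) = -1) (e₂ : (χ g₂ : E) = 1) : R.ContR σ₁ m ψ := by
  classical
  intro ε hε
  obtain ⟨r, hr⟩ := h (fun φ => if φ = σ₁ then -1 else 1) (by
    intro φ g hg
    rcases real_two hK hne φ with rfl | rfl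
    · rw [if_pos rfl, ← e₁, (hF K j).2.2.1 Eˣ χ _ g g₁ hg h₁]
    · rw [if_neg (Ne.symm hne), ← e₂, (hF K j).2.2.1 Eˣ χ _ g g₂ hg h₂]) ε hε
  refine ⟨r + 1, fun α hα => ?_⟩
  have hα0 := ne_zero_of_dvd hα
  have h1 := hr α hα0 (dvd_trans (Nat.cast_dvd_cast
    (mul_dvd_mul_right (pow_dvd_pow 2 (Nat.le_succ r)) m)) hα)
  have h2 : (∏ᶠ φ ∈ {φ : K →+* ℝ | φ (α : K) < 0}, (if φ = σ₁ then (-1 : E) else 1)) =
      if σ₁ (α : K) < 0 then -1 else 1 := by
    rw [finprod_eq_single _ σ₁]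
    · rw [if_pos rfl]
      exact finprod_eq_if
    · intro φ hφ
      rw [if_neg hφ]
      simp
  rw [h2] at h1
  have h3 : σ₁ (α : K) ≠ 0 := by
    rw [map_ne_zero]
    exact fun h0 => hα0 (RingOfIntegers.ext h0)
  rcases lt_or_gt_of_ne h3 with h4 | h4
  · rw [if_pos h4] at h1
    rw [if_neg (not_lt.2 h4.le)]
    have h5 : ψ (Ideal.span {α}) - -1 = -(ψ (Ideal.span {α}) * -1 - 1) := by ring
    rw [h5, norm_neg]
    exact h1
  · rw [if_neg (not_lt.2 h4.le), mul_one] at h1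
    rw [if_pos h4]
    exact h1

/-- reciprocity gives a Hecke character, in the sense of `HeckeChar` -/
lemma hecke_of (hF : C.FREStmt) (hK : finrank ℚ K = 2) (h : Rec j χ m ψ)
    (r : GQ →* GL (Fin 2) E) (hr : IsInd j χ r) (ho : OddRep r) : HeckeChar m ψ := by
  by_cases hσ : Nonempty (K →+* ℝ)
  · obtain ⟨σ₁⟩ := hσ
    obtain ⟨σ₂, hne⟩ := exists_real hK σ₁
    obtain ⟨g₁, h₁⟩ := (hF K j).2.2.2 σ₁
    obtain ⟨g₂, h₂⟩ := (hF K j).2.2.2 σ₂
    have hs := signs hF hK j χ r hr ho hne h₁ h₂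
    right
    rcases sign_sq j χ h₁ with e₁ | e₁
    · rw [e₁, one_mul] at hs
      exact ⟨σ₂, contR_of hF hK (Ne.symm hne) h h₂ h₁ hs e₁⟩
    · rw [e₁, neg_one_mul, neg_inj] at hs
      exact ⟨σ₁, contR_of hF hK hne h h₁ h₂ e₁ hs⟩
  · left
    have hc : NumberField.IsTotallyComplex K := by
      refine ⟨fun v => ?_⟩
      rw [← NumberField.InfinitePlace.not_isReal_iff_isComplex]
      intro hv
      apply hσ
      exact ⟨NumberField.InfinitePlace.embedding_of_isReal hv⟩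
    exact ⟨hc, cont2_of h⟩

end Hecke

/-! ### the theorem -/

lemma attached_mono {K : Type} [Field K] [NumberField K] {E : Type} [Field E] {j : K →+* Qb}
    {χ : GK j →* Eˣ} {ψ : Ideal (𝓞 K) → E} {B B' : ℕ} (h : Attached j χ ψ B) (hd : B ∣ B') :
    Attached j χ ψ B' :=
  fun ℓ hℓ hB P hP hℓP g => h ℓ hℓ (fun h' => hB (h'.trans hd)) P hP hℓP g

/-- **the induced form**: `r` odd and induced, over a finite extension `E'` containing `K`, from a
continuous character `χ` of `G_K` -/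
theorem top_ind (hM2 : X.MAIN2Stmt) (hM3 : R.MAIN3Stmt) (hG : C.GCHStmt) (hF : C.FREStmt)
    {K : Type} [Field K] [NumberField K] (hK : finrank ℚ K = 2) (j : K →+* Qb)
    (E E' : Type) [NontriviallyNormedField E] [NormedAlgebra ℚ_[2] E] [FiniteDimensional ℚ_[2] E]
    [NontriviallyNormedField E'] [NormedAlgebra ℚ_[2] E'] [IsUltrametricDist E']
    [FiniteDimensional ℚ_[2] E'] [NormedAlgebra E E'] [IsScalarTower ℚ_[2] E E'] (ι : K →+* E')
    (r : GQ →* GL (Fin 2) E) (hc : Continuous r) (ho : OddRep r)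
    (hS : {p : ℕ | p.Prime ∧ ¬ UnrAt r p}.Finite) (χ : GK j →* E'ˣ) (hχ : Continuous χ)
    (hr : IsInd j χ (bc E' r)) (hle : ∀ g : GK j, r g = 1 → χ g = 1) : Q1Concl E r := by
  have hq : Algebra.IsQuadraticExtension ℚ K := ⟨hK⟩
  obtain ⟨m, ψ, hm, hmp, hatt, hrec⟩ := hG K j E' χ hχ hS.toFinset (by
    intro p hp hpS P hP hpP g hg
    have hu : UnrAt r p := by
      by_contra hn
      exact hpS (hS.mem_toFinset.2 ⟨hp, hn⟩)
    exact hle g (hu P hP hpP g hg))
  have hd0 : (discr K).natAbs ≠ 0 := Int.natAbs_ne_zero.2 (NumberField.discr_ne_zero K)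
  obtain ⟨e, D₁, hD₁, hD⟩ := Nat.exists_eq_two_pow_mul_odd hd0
  rw [mul_comm] at hD
  have hdvd : 2 * m ∣ 2 * (D₁ * m ^ 2) := mul_dvd_mul_left 2 ⟨D₁ * m, by ring⟩
  have hh : HeckeChar m ψ := hecke_of hF hK hrec (bc E' r) hr (bc_odd.2 ho)
  exact (fin2 hM2 hM3 K E E' ι m hm ψ hh D₁ e hD hD₁ j χ (attached_mono hatt hdvd) r hc hr).2.1
    (by
      intro p hp hpm hu
      obtain ⟨P, hP, hpP, g, hg, hne⟩ := hmp p hp hpm
      exact hne (hle g (hu P hP hpP g hg)))

/-- **the theorem**: a continuous, odd, absolutely irreducible `r : G_ℚ → GL₂(E)`, unramified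
outside finitely many primes, whose restriction to `G_K` is not absolutely irreducible for some
quadratic field `K`, satisfies the conclusion of Q1 -/
theorem top (hM2 : X.MAIN2Stmt) (hM3 : R.MAIN3Stmt) (hG : C.GCHStmt) (hF : C.FREStmt)
    {K : Type} [Field K] [NumberField K] (hK : finrank ℚ K = 2) (j : K →+* Qb)
    (E : Type) [NontriviallyNormedField E] [NormedAlgebra ℚ_[2] E] [FiniteDimensional ℚ_[2] E]
    (r : GQ →* GL (Fin 2) E) (hc : Continuous r) (ho : OddRep r) (hi : AbsIrr r)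
    (hS : {p : ℕ | p.Prime ∧ ¬ UnrAt r p}.Finite) (hd : RedOn j r) : Q1Concl E r := by
  obtain ⟨w, hw, hst⟩ := hd
  obtain ⟨E', i1, i2, i3, i4, i5, i6, κ, i, w', hw'⟩ := ext2 K E w
  have hww : w = fun a => i (w' a) := funext fun a => (hw' a).symm
  subst hww
  have hi0 : Function.Injective i := i.toRingHom.injective
  have hmv : ∀ (M : Matrix (Fin 2) (Fin 2) E) (u : Fin 2 → E') (a : Fin 2),
      (M.map (algebraMap E (AlgebraicClosure E)) *ᵥ fun b => i (u b)) a =
        i ((M.map (algebraMap E E') *ᵥ u) a) := by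
    intro M u a
    simp only [Matrix.mulVec, dotProduct, Fin.sum_univ_two, Matrix.map_apply, map_add, map_mul,
      AlgHom.commutes]
  have hw0 : w' ≠ 0 := by
    rintro rfl
    apply hw
    funext a
    simp
  have hirr : ∀ u : Fin 2 → E', u ≠ 0 → ∃ g : GQ, ∀ a : E',
      ((r g : Matrix (Fin 2) (Fin 2) E).map (algebraMap E E')) *ᵥ u ≠ a • u := by
    intro u hu
    obtain ⟨g, hg⟩ := hi (fun b => i (u b)) (by
      intro h0
      apply hu
      funext b
      apply hi0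
      have := congrFun h0 b
      rw [Pi.zero_apply] at this ⊢
      rw [this, map_zero])
    refine ⟨g, fun a ha => hg (i a) ?_⟩
    funext b
    rw [hmv, ha]
    simp
  have hst' : ∀ g : GK j, ∃ a : E',
      ((r g : Matrix (Fin 2) (Fin 2) E).map (algebraMap E E')) *ᵥ w' = a • w' := by
    intro g
    obtain ⟨a, ha⟩ := hst g
    obtain ⟨k, hk⟩ : ∃ k, w' k ≠ 0 := by
      by_contra hn
      push Not at hn
      exact hw0 (funext hn)
    have ha' : ∀ b, i ((((r g : Matrix (Fin 2) (Fin 2) E).map (algebraMap E E')) *ᵥ w') b) =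
        a * i (w' b) := by
      intro b
      rw [← hmv, ha]
      rfl
    refine ⟨(((r g : Matrix (Fin 2) (Fin 2) E).map (algebraMap E E')) *ᵥ w') k / w' k, ?_⟩
    have hik : i (w' k) ≠ 0 := fun h0 => hk (hi0 (by rw [h0, map_zero]))
    funext b
    apply hi0
    rw [ha' b, Pi.smul_apply, smul_eq_mul, map_mul, map_div₀, ha' k, mul_div_cancel_right₀ _ hik]
  obtain ⟨χ, hχ, hχw, cc, hcc⟩ := H220.LINE K hK j E E' r hc hirr w' hw0 hst'
  have hr : IsInd j χ (bc E' r) := ⟨w', hχw, cc, hcc⟩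
  refine top_ind hM2 hM3 hG hF hK j E E' κ r hc ho hS χ hχ hr ?_
  intro g hg
  have h1 := hχw g
  rw [hg, Units.val_one, Matrix.map_one _ (map_zero _) (map_one _), Matrix.one_mulVec] at h1
  apply Units.ext
  apply H220.smul_cancel hw0
  rw [← h1, Units.val_one, one_smul]

end Vale.Agent.P022.H20
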