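import Vale.Agent.P022.H20.Top
import Vale.Agent.P022.H220.Top2
import Vale.Agent.P022.H477.GCH
import Vale.Agent.P022.H651.FCH
import Vale.Agent.P022.H565.Fre
import Vale.Agent.P022.H851.TPQ
import Vale.Agent.P022.H851.POWC
import Vale.Agent.P022.H953.PSI
import Vale.Agent.P022.H953.CPT
import Vale.Agent.P022.H933.Main2F
import Vale.Agent.P022.H545.Main3F

/-! # P022: Q1 for all dihedral representations, from Artin reciprocity `C.RECStmt` for cyclic
extensions -/

open NumberField Matrix Module

noncomputable section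

namespace Vale.Agent.P022.H20

open Vale.Agent.P022

/-- reciprocity for the continuous `2`-adic characters of `G_K` -/
theorem gch (hR : C.RECStmt) : C.GCHStmt :=
  H477.GC.GCH (H651.FCH hR) H565.FRE H851.TPQ H953.CPT H953.PSI H851.POWC

theorem topStmt (hR : C.RECStmt) : TopStmt :=
  fun _ _ _ hK j E _ _ _ r hc ho hi hS hd =>
    top X.MAIN2 H545.MAIN3 (gch hR) H565.FRE hK j E r hc ho hi hS hd

/-- **Q1 for all dihedral representations** -/
theorem q1 (hR : C.RECStmt) (E : Type) [NontriviallyNormedField E]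
    [NormedAlgebra ℚ_[2] E] [FiniteDimensional ℚ_[2] E] (r : GQ →* GL (Fin 2) E)
    (hc : Continuous r) (ho : OddRep r) (hi : AbsIrr r)
    (hS : {p : ℕ | p.Prime ∧ ¬ UnrAt r p}.Finite) (hd : Dihedral r) : Q1Concl E r :=
  q1_dihedral (topStmt hR) E r hc ho hi hS hd

end Vale.Agent.P022.H20
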