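import Vale.Agent.P022.H20.Top2
import Vale.Agent.P022.H567.Rec

/-! # P022: Q1 for all dihedral representations, unconditionally -/

open NumberField Matrix Module

noncomputable section

namespace Vale.Agent.P022.H20

open Vale.Agent.P022

/-- **Q1 for all dihedral representations**: `r` continuous, odd, absolutely irreducible,
unramified outside finitely many primes, and `tr r = 0` outside an open subgroup of index two -/
theorem q1F (E : Type) [NontriviallyNormedField E]
    [NormedAlgebra ℚ_[2] E] [FiniteDimensional ℚ_[2] E] (r : GQ →* GL (Fin 2) E)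
    (hc : Continuous r) (ho : OddRep r) (hi : AbsIrr r)
    (hS : {p : ℕ | p.Prime ∧ ¬ UnrAt r p}.Finite) (hd : Dihedral r) : Q1Concl E r :=
  q1 C.REC E r hc ho hi hS hd

/-- the same with `r` commutative on an open subgroup of index two -/
theorem q1C (E : Type) [NontriviallyNormedField E]
    [NormedAlgebra ℚ_[2] E] [FiniteDimensional ℚ_[2] E] (r : GQ →* GL (Fin 2) E)
    (hc : Continuous r) (ho : OddRep r) (hi : AbsIrr r)
    (hS : {p : ℕ | p.Prime ∧ ¬ UnrAt r p}.Finite)
    (hd : ∃ H : Subgroup GQ, IsOpen (H : Set GQ) ∧ H.index = 2 ∧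
      ∀ g ∈ H, ∀ h ∈ H, r g * r h = r h * r g) : Q1Concl E r :=
  q1F E r hc ho hi hS ((H220.dihedral_iff r hi).2.2 hd)

end Vale.Agent.P022.H20
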